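import Vale.Agent.P092.H632.T.Glue
import Vale.Agent.P092.H971.PlcSL

/-!
The torsion input for lattices in finite products of groups `SL_n(k)`, at every place, for all
amplified frames.
-/

set_option linter.all false

open scoped InnerProductSpace
open Filter Topology ContinuousLinearMap Matrix

namespace Vale.Agent.P092.H632.T

open Vale.Agent.P092.H160 Vale.Agent.P092.H103 Vale.Agent.P092.H971 Vale.Agent.P092.H333

/-- **No class of finite trace at the place `j`.** -/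
theorem torR {J : Type} [Finite J] {n : J → ℕ} {k : J → Type} [∀ j, NontriviallyNormedField (k j)]
    [∀ j, ProperSpace (k j)] [∀ j, IsUltrametricDist (k j)]
    (Γ : Subgroup (∀ j, SpecialLinearGroup (Fin (n j)) (k j))) (hn : ∀ j, 2 ≤ n j)
    (hlat : H515.St.IsLattice Γ)
    (hicc : ∀ g : Γ, g ≠ 1 → Set.Infinite {y : Γ | ∃ h, y = h * g * h⁻¹})
    {Λ : Type} [Group Λ] (hΛ : ∀ s : Λ, s ≠ 1 → Set.Infinite {y : Λ | ∃ h, y = h * s * h⁻¹})
    {I : Type} [Fintype I] {α : Γ → (Ell2 (I × Λ) →L[ℂ] Ell2 (I × Λ))} (hα : AF α)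
    (j : J) (hd : DenseRange (H971.pj Γ j)) (U : Subgroup (SpecialLinearGroup (Fin (n j)) (k j)))
    (hU : IsOpen (U : Set (SpecialLinearGroup (Fin (n j)) (k j)))) :
    NoClsT hα ((U.comap (H971.pj Γ j) : Subgroup Γ) : Set Γ) := by
  refine noClsT hα hΛ (𝒰 := flt (H971.pj Γ j)) (fun U hU S hS => flt_up hU hS)
    (fun U hU U' hU' => flt_inf hU hU') (fun U hU g => flt_conj hU g) ?_ (volBd (hn j) hd)
    (open_mem_flt _ hU)
  rintro S ⟨K, hK, -, hKS⟩ h hh
  refine (ricc_sl hn Γ hlat j hd hicc hh K hK).mono ?_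
  rintro x ⟨g, hg, rfl⟩
  exact ⟨g, hKS hg, rfl⟩

end Vale.Agent.P092.H632.T
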