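import Vale.Agent.P092.H632.T.Fd

/-!
The orbit of a minimal projection under `Γ` and the bound of its `Γ`-trace.
-/

set_option linter.all false

open scoped InnerProductSpace ENNReal
open Filter Topology ContinuousLinearMap

namespace Vale.Agent.P092.H632.T

open Vale.Agent.P092.H160 (Cmm)
open Vale.Agent.P092.H628 (sq RInv fn Com esq enorm_adj adj_mul adj_adj enorm_le_op EE esum
  ee_memℓp ee_norm col col_apply col_norm sq_swap sq_congr sq_mono sq_mul_left sq_const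
  sq_translate sq_sub sq_part sq_conj sq_tsum VolBd)

variable {Γ Λ : Type} [Group Γ] [Group Λ] {H : Type} [NormedAddCommGroup H]
  [InnerProductSpace ℂ H] [CompleteSpace H] {κ κ' : Type} [Fintype κ] [Fintype κ']
  {lam : Γ →* (H →L[ℂ] H)} {R : Λ →* (H →L[ℂ] H)} {ω : κ' → H} {ξ : κ → H} {𝒰 : Set (Subgroup Γ)}
  {D : Subgroup Λ}

/-- conjugation by `lam g` -/
noncomputable def cj (lam : Γ →* (H →L[ℂ] H)) (g : Γ) (x : H →L[ℂ] H) : H →L[ℂ] H :=
  lam g * x * lam g⁻¹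

theorem linv (lam : Γ →* (H →L[ℂ] H)) (g : Γ) : lam g⁻¹ * lam g = 1 := by
  rw [← map_mul, inv_mul_cancel, map_one]

theorem rinv' (lam : Γ →* (H →L[ℂ] H)) (g : Γ) : lam g * lam g⁻¹ = 1 := by
  rw [← map_mul, mul_inv_cancel, map_one]

theorem cj_mul (g : Γ) (x y : H →L[ℂ] H) : cj lam g (x * y) = cj lam g x * cj lam g y := by
  unfold cj
  calc lam g * (x * y) * lam g⁻¹ = lam g * x * 1 * y * lam g⁻¹ := by simp only [mul_assoc, one_mul]
    _ = lam g * x * (lam g⁻¹ * lam g) * y * lam g⁻¹ := by rw [linv]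
    _ = _ := by simp only [mul_assoc]

theorem cj_cj (g k : Γ) (x : H →L[ℂ] H) : cj lam g (cj lam k x) = cj lam (g * k) x := by
  unfold cj
  rw [mul_inv_rev, map_mul, map_mul]
  simp only [mul_assoc]

theorem cj_one (x : H →L[ℂ] H) : cj lam 1 x = x := by
  unfold cj
  rw [inv_one, map_one, one_mul, mul_one]

theorem cj_inv_cj (g : Γ) (x : H →L[ℂ] H) : cj lam g⁻¹ (cj lam g x) = x := by
  rw [cj_cj, inv_mul_cancel, cj_one]

theorem cj_cj_inv (g : Γ) (x : H →L[ℂ] H) : cj lam g (cj lam g⁻¹ x) = x := by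
  rw [cj_cj, mul_inv_cancel, cj_one]

theorem cj_zero (g : Γ) : cj lam g (0 : H →L[ℂ] H) = 0 := by
  unfold cj; rw [mul_zero, zero_mul]

theorem cj_sum {ι : Type} (s : Finset ι) (f : ι → H →L[ℂ] H) (g : Γ) :
    cj lam g (∑ i ∈ s, f i) = ∑ i ∈ s, cj lam g (f i) := by
  unfold cj; rw [Finset.mul_sum, Finset.sum_mul]

theorem cj_ne (g : Γ) {x : H →L[ℂ] H} (hx : x ≠ 0) : cj lam g x ≠ 0 := fun h0 => hx (by
  rw [← cj_inv_cj (lam := lam) g x, h0, cj_zero])

theorem cj_adj (h : Fra lam ω) (g : Γ) (x : H →L[ℂ] H) :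
    adjoint (cj lam g x) = cj lam g (adjoint x) := by
  unfold cj
  rw [adj_mul, adj_mul, h.adj, h.adj, inv_inv, mul_assoc]

theorem cj_of_com {U : Subgroup Γ} {x : H →L[ℂ] H} (hx : Com lam U x) {g : Γ} (hg : g ∈ U) :
    cj lam g x = x := by
  unfold cj
  rw [← hx g hg, mul_assoc, rinv', mul_one]

theorem cmm_of_cj {x : H →L[ℂ] H} (hx : ∀ g, cj lam g x = x) : Cmm lam x := by
  intro g
  have h1 := hx g
  unfold cj at h1
  calc x * lam g = lam g * x * lam g⁻¹ * lam g := by rw [h1]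
    _ = lam g * x * (lam g⁻¹ * lam g) := by simp only [mul_assoc]
    _ = _ := by rw [linv, mul_one]

theorem adj_mul_self_ne {x : H →L[ℂ] H} (hx : x ≠ 0) : adjoint x * x ≠ 0 := by
  intro h0
  apply hx
  have h1 : star x * x = 0 := h0
  exact (CStarRing.star_mul_self_eq_zero_iff x).mp h1

theorem mul_adj_self_ne {x : H →L[ℂ] H} (hx : x ≠ 0) : x * adjoint x ≠ 0 := by
  intro h0
  apply hx
  have h1 : x * star x = 0 := h0
  exact (CStarRing.mul_star_self_eq_zero_iff x).mp h1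

/-- `z` is the central support of `e`. -/
structure ZP (lam : Γ →* (H →L[ℂ] H)) (R : Λ →* (H →L[ℂ] H)) (ξ : κ → H) (𝒰 : Set (Subgroup Γ))
    (D : Subgroup Λ) (e z : H →L[ℂ] H) : Prop where
  mem : Qd lam R ξ 𝒰 D z
  adj : adjoint z = z
  left : ∀ y, Qd lam R ξ 𝒰 D y → y * e = y → z * y = y
  rep : ∃ (n : ℕ) (a b : Fin n → H →L[ℂ] H), (∀ i, Qd lam R ξ 𝒰 D (a i)) ∧
    (∀ i, a i * e = a i) ∧ z = ∑ i, a i * adjoint (b i)

theorem Mn.exists_z (h : Sys lam R ω ξ 𝒰) {e : H →L[ℂ] H} (he : Mn lam R ξ 𝒰 D e) :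
    ∃ z, ZP lam R ξ 𝒰 D e z := by
  classical
  obtain ⟨n, x, h1, h2, h3, h4⟩ := he.exists_basis h
  have hN : ip R D ξ e e ≠ 0 := by
    rw [ip_self _ he.mem.fin]
    have := one_le_nn h he.mem he.ne he.idem
    have h4 : (nn R D ξ e).toReal ≠ 0 := by
      rw [ENNReal.toReal_ne_zero]
      exact ⟨fun h0 => by rw [h0] at this; simp at this, he.mem.fin⟩
    exact_mod_cast h4
  have hNr : (starRingEnd ℂ) (ip R D ξ e e) = ip R D ξ e e := ip_symm he.mem.fin he.mem.fin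
  set N := ip R D ξ e e with hNdef
  refine ⟨∑ i, (N • x i) * adjoint (x i), ?_, ?_, ?_, n, fun i => N • x i, x,
    fun i => (h1 i).smul _, fun i => by rw [smul_mul_assoc, h2], rfl⟩
  · have : ∀ s : Finset (Fin n), Qd lam R ξ 𝒰 D (∑ i ∈ s, (N • x i) * adjoint (x i)) := by
      intro s
      induction s using Finset.induction_on with
      | empty => simpa using Qd.zero h
      | insert a s ha ih =>
        rw [Finset.sum_insert ha]
        exact (((h1 a).smul _).mul h ((h1 a).adj h)).add h ih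
    exact this _
  · rw [map_sum]
    refine Finset.sum_congr rfl fun i _ => ?_
    rw [adj_mul, adj_adj, map_smulₛₗ, hNr, mul_smul_comm, smul_mul_assoc]
  · intro y hy hye
    rw [Finset.sum_mul]
    conv_rhs => rw [h4 y hy hye]
    refine Finset.sum_congr rfl fun i _ => ?_
    rw [mul_assoc, he.exists_mul h (h1 i) hy (h2 i) hye, mul_smul_comm, smul_mul_assoc, h2,
      smul_smul, div_mul_cancel₀ _ hN]

theorem ZP.act (h : Sys lam R ω ξ 𝒰) {e z : H →L[ℂ] H} (hz : ZP lam R ξ 𝒰 D e z) (g : Γ) :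
    ZP lam R ξ 𝒰 D (cj lam g e) (cj lam g z) := by
  obtain ⟨n, a, b, h1, h2, h3⟩ := hz.rep
  refine ⟨hz.mem.act h g, ?_, ?_, n, fun i => cj lam g (a i), fun i => cj lam g (b i),
    fun i => (h1 i).act h g, fun i => by rw [← cj_mul, h2], ?_⟩
  · rw [cj_adj h.regL, hz.adj]
  · intro y hy hye
    have h4 := hz.left (cj lam g⁻¹ y) (hy.act h g⁻¹) (by
      conv_rhs => rw [← hye]
      rw [cj_mul, cj_inv_cj])
    calc cj lam g z * y = cj lam g (z * cj lam g⁻¹ y) := by rw [cj_mul, cj_cj_inv]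
      _ = y := by rw [h4, cj_cj_inv]
  · rw [h3, cj_sum]
    refine Finset.sum_congr rfl fun i _ => ?_
    rw [cj_mul, cj_adj h.regL]

/-- two equivalent minimal projections -/
theorem Mn.rel (h : Sys lam R ω ξ 𝒰) {e f x : H →L[ℂ] H} (he : Mn lam R ξ 𝒰 D e)
    (hf : Mn lam R ξ 𝒰 D f) (hx : Qd lam R ξ 𝒰 D x) (hne : e * x * f ≠ 0) :
    ∃ (u : H →L[ℂ] H) (c : ℂ), Qd lam R ξ 𝒰 D u ∧ u * e = u ∧ f = c • (u * adjoint u) := by
  obtain ⟨c, hc⟩ := hf.min _ (((hx.adj h).mul h he.mem).mul h hx)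
  have hu : adjoint (e * x * f) = f * adjoint x * e := by
    rw [adj_mul, adj_mul, hf.adj, he.adj, mul_assoc]
  refine ⟨f * adjoint x * e, c⁻¹, (hf.mem.mul h (hx.adj h)).mul h he.mem, ?_, ?_⟩
  · rw [mul_assoc, he.idem]
  · have h1 : f * adjoint x * e * adjoint (f * adjoint x * e) = c • f := by
      rw [← hu, adj_adj, hu, ← hc]
      calc f * adjoint x * e * (e * x * f) = f * adjoint x * (e * e) * x * f := by
            simp only [mul_assoc]
        _ = _ := by rw [he.idem]; simp only [mul_assoc]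
    have h2 : f * adjoint x * e * adjoint (f * adjoint x * e) ≠ 0 := by
      apply mul_adj_self_ne
      rw [← hu]
      intro h0
      apply hne
      rw [← adj_adj (e * x * f), h0, map_zero]
    have hc0 : c ≠ 0 := by
      rintro rfl
      rw [h1, zero_smul] at h2
      exact h2 rfl
    rw [h1, smul_smul, inv_mul_cancel₀ hc0, one_smul]

theorem ZP.mul_eq (h : Sys lam R ω ξ 𝒰) {e f x z z' : H →L[ℂ] H} (he : Mn lam R ξ 𝒰 D e)
    (hf : Mn lam R ξ 𝒰 D f) (hx : Qd lam R ξ 𝒰 D x) (hne : e * x * f ≠ 0)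
    (hz : ZP lam R ξ 𝒰 D e z) (hz' : ZP lam R ξ 𝒰 D f z') : z * z' = z' := by
  obtain ⟨u, c, hu, hue, hfu⟩ := he.rel h hf hx hne
  obtain ⟨n, a, b, h1, h2, h3⟩ := hz'.rep
  rw [h3, Finset.mul_sum]
  refine Finset.sum_congr rfl fun i _ => ?_
  have h4 : z * a i = a i := by
    have e1 : a i = c • ((a i * u) * adjoint u) := by
      conv_lhs => rw [← h2 i, hfu]
      rw [mul_smul_comm, mul_assoc]
    have e2 : z * (a i * u) = a i * u := hz.left _ ((h1 i).mul h hu) (by rw [mul_assoc, hue])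
    conv_lhs => rw [e1]
    rw [mul_smul_comm, ← mul_assoc z, e2]
    exact e1.symm
  rw [← mul_assoc, h4]

theorem ZP.eq (h : Sys lam R ω ξ 𝒰) {e f x z z' : H →L[ℂ] H} (he : Mn lam R ξ 𝒰 D e)
    (hf : Mn lam R ξ 𝒰 D f) (hx : Qd lam R ξ 𝒰 D x) (hne : e * x * f ≠ 0)
    (hz : ZP lam R ξ 𝒰 D e z) (hz' : ZP lam R ξ 𝒰 D f z') : z = z' := by
  have h1 := ZP.mul_eq h he hf hx hne hz hz'
  have hne' : f * adjoint x * e ≠ 0 := by
    intro h0
    apply hne
    have : adjoint (f * adjoint x * e) = e * x * f := by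
      rw [adj_mul, adj_mul, hf.adj, he.adj, adj_adj, mul_assoc]
    rw [← this, h0, map_zero]
  have h2 := ZP.mul_eq h hf he (hx.adj h) hne' hz' hz
  calc z = adjoint z := hz.adj.symm
    _ = adjoint (z' * z) := by rw [h2]
    _ = z * z' := by rw [adj_mul, hz.adj, hz'.adj]
    _ = z' := h1

/-- the stabiliser of the block of `e` -/
def Ostab (h : Sys lam R ω ξ 𝒰) {e : H →L[ℂ] H} (he : Mn lam R ξ 𝒰 D e) : Subgroup Γ where
  carrier := {g | ∃ x, Qd lam R ξ 𝒰 D x ∧ e * x * cj lam g e ≠ 0}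
  one_mem' := ⟨e, he.mem, by rw [cj_one, he.idem, he.idem]; exact he.ne⟩
  inv_mem' := by
    rintro g ⟨x, hx, hne⟩
    refine ⟨cj lam g⁻¹ (adjoint x), (hx.adj h).act h _, fun h0 => hne ?_⟩
    have h1 : adjoint (cj lam g (e * cj lam g⁻¹ (adjoint x) * cj lam g⁻¹ e)) = e * x * cj lam g e := by
      rw [cj_mul, cj_mul, cj_cj_inv, cj_cj_inv, adj_mul, adj_mul, cj_adj h.regL, he.adj, adj_adj,
        mul_assoc]
    rw [← h1, h0, cj_zero, map_zero]
  mul_mem' := by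
    rintro g k ⟨x, hx, hne⟩ ⟨y, hy, hne'⟩
    have hf : Mn lam R ξ 𝒰 D (cj lam g e) := he.act h g
    refine ⟨x * cj lam g e * cj lam g y, (hx.mul h hf.mem).mul h (hy.act h g), fun h0 => ?_⟩
    obtain ⟨c, hc⟩ := hf.min _ (((hx.adj h).mul h he.mem).mul h hx)
    have h1 : adjoint (e * x * cj lam g e) * (e * x * cj lam g e) = c • cj lam g e := by
      rw [adj_mul, adj_mul, hf.adj, he.adj, ← hc]
      calc cj lam g e * (adjoint x * e) * (e * x * cj lam g e)
          = cj lam g e * (adjoint x * (e * e) * x) * cj lam g e := by simp only [mul_assoc]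
        _ = _ := by rw [he.idem]
    have h2 := adj_mul_self_ne hne
    have hc0 : c ≠ 0 := by
      rintro rfl
      rw [h1, zero_smul] at h2
      exact h2 rfl
    have h3 : cj lam g (e * y * cj lam k e) ≠ 0 := cj_ne g hne'
    apply h3
    have h4 : adjoint (e * x * cj lam g e) *
        (e * (x * cj lam g e * cj lam g y) * cj lam (g * k) e)
        = c • cj lam g (e * y * cj lam k e) := by
      calc adjoint (e * x * cj lam g e) * (e * (x * cj lam g e * cj lam g y) * cj lam (g * k) e)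
          = (adjoint (e * x * cj lam g e) * (e * x * cj lam g e)) * cj lam g y
              * cj lam (g * k) e := by simp only [mul_assoc]
        _ = _ := by
            rw [h1, smul_mul_assoc, smul_mul_assoc, cj_mul, cj_mul, cj_cj]
    rw [h0, mul_zero] at h4
    exact (smul_eq_zero.mp h4.symm).resolve_left hc0

theorem mem_Ostab (h : Sys lam R ω ξ 𝒰) {e : H →L[ℂ] H} (he : Mn lam R ξ 𝒰 D e) (g : Γ) :
    g ∈ Ostab h he ↔ ∃ x, Qd lam R ξ 𝒰 D x ∧ e * x * cj lam g e ≠ 0 := Iff.rfl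

theorem le_Ostab (h : Sys lam R ω ξ 𝒰) {e : H →L[ℂ] H} (he : Mn lam R ξ 𝒰 D e) {U : Subgroup Γ}
    (hU : Com lam U e) : U ≤ Ostab h he := fun g hg => ⟨e, he.mem, by
  rw [cj_of_com hU hg, he.idem, he.idem]; exact he.ne⟩

theorem Ostab_mem (h : Sys lam R ω ξ 𝒰) {e : H →L[ℂ] H} (he : Mn lam R ξ 𝒰 D e) :
    Ostab h he ∈ 𝒰 := by
  obtain ⟨U, hU, h1, _, _⟩ := he.mem
  exact h.up U hU _ (le_Ostab h he h1)

theorem cj_mul_cj (h : Sys lam R ω ξ 𝒰) {e : H →L[ℂ] H} (he : Mn lam R ξ 𝒰 D e) {g k : Γ}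
    (hgk : g⁻¹ * k ∉ Ostab h he) : cj lam g e * cj lam k e = 0 := by
  by_contra hne
  apply hgk
  refine ⟨e, he.mem, fun h0 => hne ?_⟩
  rw [he.idem] at h0
  calc cj lam g e * cj lam k e = cj lam g (e * cj lam (g⁻¹ * k) e) := by
        rw [cj_mul, cj_cj, mul_inv_cancel_left]
    _ = 0 := by rw [h0, cj_zero]

/-- `Γ`-invariant elements have infinite trace if `D` has infinite index. -/
theorem nn_of_cmm (h : Sys lam R ω ξ 𝒰) {z : H →L[ℂ] H} (hz : Cmm lam z) (w : Λ) :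
    ∑ k, ‖z (R w (ω k))‖ₑ ^ 2 = ∑ k, ‖z (ω k)‖ₑ ^ 2 := by
  have key : ∀ y : H →L[ℂ] H, Cmm lam y → nn lam ⊤ ω y = ∑ k, ‖y (ω k)‖ₑ ^ 2 := by
    intro y hy
    unfold nn
    refine Finset.sum_congr rfl fun k _ => ?_
    have h1 : ∀ g : Γ, fn lam (ω k) y g = ‖y (ω k)‖ₑ ^ 2 := by
      intro g
      unfold fn
      rw [hy.apply, enorm_map h.regL]
    rw [sq_congr h1]
    unfold H628.sq
    haveI : Subsingleton (Γ ⧸ (⊤ : Subgroup Γ)) := QuotientGroup.subsingleton_quotient_top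
    haveI : Unique (Γ ⧸ (⊤ : Subgroup Γ)) := uniqueOfSubsingleton ((1 : Γ) : Γ ⧸ (⊤ : Subgroup Γ))
    rw [tsum_eq_single ((1 : Γ) : Γ ⧸ (⊤ : Subgroup Γ)) (fun b hb => absurd
      (Subsingleton.elim _ _) hb)]
  have hzR : Cmm lam (z * R w) := hz.mul (h.comRL w)
  have hct : ∀ y : H →L[ℂ] H, Cmm lam y → Com lam ⊤ y := fun y hy g _ => hy g
  have h1 : nn lam ⊤ ω (z * R w) = nn lam ⊤ ω z := by
    refine nn_isom_right h.regL (hct _ hz) (hct _ (h.comRL w)) fun v => ?_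
    rw [h.regR.adj, enorm_map h.regR]
  rw [key _ hzR, key _ hz] at h1
  exact h1

theorem not_cmm (h : Sys lam R ω ξ 𝒰) {z : H →L[ℂ] H} (hz : Cmm lam z) (hzQ : Qd lam R ξ 𝒰 D z)
    (hD : D.index = 0) : z = 0 := by
  have h0 : ∑ k, sq D (fn R (ω k) z) = nn R D ξ z * ∑ k, ‖ω k‖ₑ ^ 2 := by
    rw [Finset.mul_sum]
    exact Finset.sum_congr rfl fun k _ => K_eq h hzQ (ω k)
  rw [h.regL.nrm, mul_one] at h0
  have h1 : ∑ k, sq D (fn R (ω k) z) = sq D (fun g => ∑ k, fn R (ω k) z g) := by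
    unfold H628.sq
    exact (Summable.tsum_finsetSum fun i _ => ENNReal.summable).symm
  have h2 : ∀ g : Λ, (∑ k, fn R (ω k) z g) = ∑ k, ‖z (ω k)‖ₑ ^ 2 := by
    intro g
    unfold fn
    exact nn_of_cmm h hz _
  have hinf : Infinite (Λ ⧸ D) := by
    by_contra hc
    rw [not_infinite_iff_finite] at hc
    have : D.FiniteIndex := Subgroup.finiteIndex_of_finite_quotient
    exact this.index_ne_zero hD
  rw [h1, sq_congr h2] at h0
  unfold H628.sq at h0
  rw [ENNReal.tsum_const] at h0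
  have h3 : ∑ k, ‖z (ω k)‖ₑ ^ 2 = 0 := by
    by_contra hne
    apply hzQ.fin
    rw [← h0]
    simp [hne]
  have h4 : ∀ k, z (ω k) = 0 := by
    intro k
    have := (Finset.sum_eq_zero_iff.mp h3) k (Finset.mem_univ k)
    simpa using this
  exact h.regL.ext_cmm hz (fun g => by simp) (fun k => by rw [h4]; rfl)

theorem Ostab_ne_top (h : Sys lam R ω ξ 𝒰) {e : H →L[ℂ] H} (he : Mn lam R ξ 𝒰 D e)
    (hD : D.index = 0) : Ostab h he ≠ ⊤ := by
  intro htop
  obtain ⟨z, hz⟩ := he.exists_z h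
  have h1 : Cmm lam z := cmm_of_cj fun g => by
    have hg : g ∈ Ostab h he := by rw [htop]; trivial
    obtain ⟨x, hx, hne⟩ := hg
    exact (ZP.eq h he (he.act h g) hx hne hz (hz.act h g)).symm
  have h2 := not_cmm h h1 hz.mem hD
  have h3 := hz.left e he.mem he.idem
  rw [h2, zero_mul] at h3
  exact he.ne h3.symm

end Vale.Agent.P092.H632.T
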