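import Vale.Agent.P092.H632.T.Bd
import Vale.Agent.P092.H628.TorBound

/-!
The bound of the `Γ`-trace of a minimal projection, and finite dimensionality.
-/

set_option linter.all false

open scoped InnerProductSpace ENNReal
open Filter Topology ContinuousLinearMap

namespace Vale.Agent.P092.H632.T

open Vale.Agent.P092.H160 (Cmm)
open Vale.Agent.P092.H628 (sq RInv fn Com esq enorm_adj adj_mul adj_adj enorm_le_op EE esum
  ee_memℓp ee_norm col col_apply col_norm sq_swap sq_congr sq_mono sq_mul_left sq_const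
  sq_translate sq_sub sq_part sq_conj sq_tsum VolBd)

variable {Γ Λ : Type} [Group Γ] [Group Λ] {H : Type} [NormedAddCommGroup H]
  [InnerProductSpace ℂ H] [CompleteSpace H] {κ κ' : Type} [Fintype κ] [Fintype κ']
  {lam : Γ →* (H →L[ℂ] H)} {R : Λ →* (H →L[ℂ] H)} {ω : κ' → H} {ξ : κ → H} {𝒰 : Set (Subgroup Γ)}
  {D : Subgroup Λ}

theorem Mn.bound1 (h : Sys lam R ω ξ 𝒰) {e : H →L[ℂ] H} (he : Mn lam R ξ 𝒰 D e)
    (hD : D.index = 0) {Θ₀ : Subgroup Γ} (hV : VolBd 𝒰 Θ₀) {U : Subgroup Γ} (hU : U ∈ 𝒰)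
    (hUΘ : U ≤ Θ₀) (hUe : Com lam U e) {p : H →L[ℂ] H} (hp : adjoint p = p)
    (hpl : Cmm lam p) (hpe : p * e = e) (η : H) :
    sq U (fn lam η e) ≤ (U.relIndex Θ₀ : ℝ≥0∞) * ‖p η‖ₑ ^ 2 := by
  classical
  set O := Ostab h he with hO
  have hUO : U ≤ O := le_Ostab h he hUe
  obtain ⟨hv1, hv2, hv3⟩ := hV.2 O (Ostab_mem h he) (Ostab_ne_top h he hD) U hU hUO hUΘ
  have hfin : Finite (O ⧸ U.subgroupOf O) := by
    have : (U.subgroupOf O).FiniteIndex := ⟨hv1⟩
    exact Subgroup.finite_quotient_of_finiteIndex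
  haveI : Fintype (O ⧸ U.subgroupOf O) := Fintype.ofFinite _
  have hcard : Fintype.card (O ⧸ U.subgroupOf O) = U.relIndex O := by
    rw [Subgroup.relIndex, Subgroup.index, Nat.card_eq_fintype_card]
  have hep : e * p = e := by
    have := congrArg adjoint hpe
    rwa [adj_mul, hp, he.adj] at this
  have hval : ∀ g : Γ, fn lam η e g = ENNReal.ofReal (‖cj lam g e (p η)‖ ^ 2) := by
    intro g
    unfold fn cj
    rw [esq]
    congr 2
    have : (lam g * e * lam g⁻¹) (p η) = lam g (e (lam g⁻¹ η)) := by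
      rw [H160.mul_ap, H160.mul_ap, ← hpl.apply, ← H160.mul_ap e p, hep]
    rw [this, h.regL.norm_map]
  have hfn : RInv U (fn lam η e) := rinv h.regL hUe η
  have h1 : sq U (fn lam η e) = ∑' q : Γ ⧸ O, ∑' k : O ⧸ U.subgroupOf O,
      ENNReal.ofReal (‖cj lam (q.out * (k.out : O)) e (p η)‖ ^ 2) := by
    rw [sq_sub hUO hfn]
    unfold H628.sq
    exact tsum_congr fun q => tsum_congr fun k => hval _
  rw [h1]
  have h2 : ∀ s : Finset (Γ ⧸ O), ∑ q ∈ s, ∑' k : O ⧸ U.subgroupOf O,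
      ENNReal.ofReal (‖cj lam (q.out * (k.out : O)) e (p η)‖ ^ 2)
      ≤ ENNReal.ofReal (U.relIndex O * ‖p η‖ ^ 2) := by
    intro s
    have h3 := H628.block_bessel s (fun (q : Γ ⧸ O) (k : O ⧸ U.subgroupOf O) =>
      cj lam (q.out * (k.out : O)) e)
      (fun q k => by
        show adjoint (cj lam (q.out * (k.out : O)) e) = _
        rw [cj_adj h.regL, he.adj])
      (fun q k => by
        show cj lam (q.out * (k.out : O)) e * cj lam (q.out * (k.out : O)) e = _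
        rw [← cj_mul, he.idem])
      (by
        intro q _ q' _ hne k k'
        apply cj_mul_cj h he
        intro hmem
        apply hne
        have h4 : q.out⁻¹ * q'.out ∈ O := by
          have e1 : q.out⁻¹ * q'.out = (k.out : O) *
              ((q.out * (k.out : O))⁻¹ * (q'.out * (k'.out : O))) * ((k'.out : O) : Γ)⁻¹ := by
            group
          rw [e1]
          exact O.mul_mem (O.mul_mem (k.out : O).2 hmem) (O.inv_mem (k'.out : O).2)
        have h5 := QuotientGroup.eq.mpr h4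
        simpa using h5) (p η)
    rw [hcard] at h3
    refine le_trans (le_of_eq ?_) (ENNReal.ofReal_le_ofReal h3)
    rw [ENNReal.ofReal_sum_of_nonneg fun q _ => Finset.sum_nonneg fun k _ => by positivity]
    refine Finset.sum_congr rfl fun q _ => ?_
    rw [ENNReal.ofReal_sum_of_nonneg fun k _ => by positivity, tsum_fintype]
  calc _ ≤ ENNReal.ofReal (U.relIndex O * ‖p η‖ ^ 2) := by
        rw [ENNReal.tsum_eq_iSup_sum]
        exact iSup_le h2
    _ ≤ ENNReal.ofReal (U.relIndex Θ₀ * ‖p η‖ ^ 2) := by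
        apply ENNReal.ofReal_le_ofReal
        have : (U.relIndex O : ℝ) ≤ U.relIndex Θ₀ := by exact_mod_cast hv3
        gcongr
    _ = _ := by
        rw [ENNReal.ofReal_mul (by positivity), ENNReal.ofReal_natCast, esq]

theorem Mn.bound (h : Sys lam R ω ξ 𝒰) {e : H →L[ℂ] H} (he : Mn lam R ξ 𝒰 D e)
    (hD : D.index = 0) {Θ₀ : Subgroup Γ} (hV : VolBd 𝒰 Θ₀) {U : Subgroup Γ} (hU : U ∈ 𝒰)
    (hUΘ : U ≤ Θ₀) (hUe : Com lam U e) {p : H →L[ℂ] H} (hp : adjoint p = p)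
    (hpl : Cmm lam p) (hpe : p * e = e) :
    nn lam U ω e ≤ (U.relIndex Θ₀ : ℝ≥0∞) * ∑ k, ‖p (ω k)‖ₑ ^ 2 := by
  unfold nn
  rw [Finset.mul_sum]
  exact Finset.sum_le_sum fun k _ => Mn.bound1 h he hD hV hU hUΘ hUe hp hpl hpe (ω k)

/-- the submodule `Q^D e` -/
def Ve (h : Sys lam R ω ξ 𝒰) (D : Subgroup Λ) (e : H →L[ℂ] H) : Submodule ℂ (H →L[ℂ] H) where
  carrier := {x | Qd lam R ξ 𝒰 D x ∧ x * e = x}
  add_mem' := fun {x y} hx hy => ⟨hx.1.add h hy.1, by rw [add_mul, hx.2, hy.2]⟩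
  zero_mem' := ⟨Qd.zero h, zero_mul _⟩
  smul_mem' := fun c x hx => ⟨hx.1.smul c, by rw [smul_mul_assoc, hx.2]⟩

theorem mem_Ve (h : Sys lam R ω ξ 𝒰) {e x : H →L[ℂ] H} :
    x ∈ Ve h D e ↔ Qd lam R ξ 𝒰 D x ∧ x * e = x := Iff.rfl

theorem Mn.fd (h : Sys lam R ω ξ 𝒰) {e : H →L[ℂ] H} (he : Mn lam R ξ 𝒰 D e) :
    FiniteDimensional ℂ (Ve h D e) := by
  classical
  obtain ⟨n, x, h1, h2, h3, h4⟩ := he.exists_basis h
  have hle : Ve h D e ≤ Submodule.span ℂ (Set.range x) := by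
    intro y hy
    rw [h4 y hy.1 hy.2]
    exact Submodule.sum_mem _ fun i _ => Submodule.smul_mem _ _ (Submodule.subset_span ⟨i, rfl⟩)
  haveI : FiniteDimensional ℂ (Submodule.span ℂ (Set.range x)) :=
    FiniteDimensional.span_of_finite ℂ (Set.finite_range x)
  exact Submodule.finiteDimensional_of_le hle

/-- The centralizer of a subgroup `C'` for which there is a minimal projection is finite. -/
theorem Mn.finite_centralizer (h : Sys lam R ω ξ 𝒰) {e : H →L[ℂ] H} (he : Mn lam R ξ 𝒰 D e)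
    (B : Subgroup Λ) (hB : ∀ b ∈ B, ∀ d ∈ D, b * d = d * b) : Finite B := by
  classical
  obtain ⟨n, x, h1, h2, h3, h4⟩ := he.exists_basis h
  by_contra hinf
  rw [not_finite_iff_infinite] at hinf
  have hcom : ∀ b : B, Com R D (R (b : Λ)) := by
    intro b d hd
    rw [← map_mul, ← map_mul, hB b b.2 d hd]
  have hQ : ∀ b : B, Qd lam R ξ 𝒰 D (R (b : Λ) * e) := fun b =>
    he.mem.mulL h (h.comRL b) (hcom b)
  have hQe : ∀ b : B, (R (b : Λ) * e) * e = R (b : Λ) * e := fun b => by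
    rw [mul_assoc, he.idem]
  have hten : ∀ i, Tendsto (fun b : B => ip R D ξ (x i) (R (b : Λ) * e)) cofinite (𝓝 0) := by
    intro i
    have hx1 := (h1 i).fin
    have he1 := he.mem.fin
    rw [nn_eq_tsum] at hx1 he1
    have h5 : Tendsto (fun b : B => ∑' q : κ × (Λ ⧸ D),
        ⟪x i (R (q.2.out)⁻¹ (ξ q.1)), R (b : Λ) (e (R (q.2.out)⁻¹ (ξ q.1)))⟫_ℂ)
        cofinite (𝓝 (∑' q : κ × (Λ ⧸ D), (0 : ℂ))) := by
      refine tendsto_tsum_of_dominated_convergence
        (bound := fun q : κ × (Λ ⧸ D) => ‖x i (R (q.2.out)⁻¹ (ξ q.1))‖ ^ 2 +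
          ‖e (R (q.2.out)⁻¹ (ξ q.1))‖ ^ 2)
        ((esum hx1).add (esum he1))
        (fun q => (coeff0 h.regR _ _).comp Subtype.val_injective.tendsto_cofinite)
        (Eventually.of_forall fun k q => ?_)
      refine (norm_inner_le_norm _ _).trans ?_
      rw [h.regR.norm_map]
      nlinarith [sq_nonneg (‖x i (R (q.2.out)⁻¹ (ξ q.1))‖ - ‖e (R (q.2.out)⁻¹ (ξ q.1))‖),
        sq_nonneg ‖x i (R (q.2.out)⁻¹ (ξ q.1))‖, sq_nonneg ‖e (R (q.2.out)⁻¹ (ξ q.1))‖]
    rw [tsum_zero] at h5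
    exact h5
  have hexp : ∀ b : B, R (b : Λ) * e = ∑ i, ip R D ξ (x i) (R (b : Λ) * e) • x i := fun b =>
    h4 _ (hQ b) (hQe b)
  have h6 : Tendsto (fun b : B => R (b : Λ) * e) cofinite (𝓝 0) := by
    have h7 : Tendsto (fun b : B => ∑ i, ip R D ξ (x i) (R (b : Λ) * e) • x i) cofinite
        (𝓝 (∑ i, (0 : ℂ) • x i)) :=
      tendsto_finsetSum _ fun i _ => (hten i).smul_const _
    simp only [zero_smul, Finset.sum_const_zero] at h7
    exact h7.congr fun b => (hexp b).symm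
  have h8 : ∀ b : B, ‖R (b : Λ) * e‖ = ‖e‖ := by
    intro b
    apply le_antisymm
    · refine (R (b : Λ) * e).opNorm_le_bound (norm_nonneg _) fun ζ => ?_
      rw [H160.mul_ap, h.regR.norm_map]
      exact e.le_opNorm ζ
    · refine e.opNorm_le_bound (norm_nonneg _) fun ζ => ?_
      have := (R (b : Λ) * e).le_opNorm ζ
      rwa [H160.mul_ap, h.regR.norm_map] at this
  have h9 := h6.norm
  simp only [h8, norm_zero] at h9
  have h10 := tendsto_nhds_unique h9 tendsto_const_nhds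
  exact he.ne (norm_eq_zero.mp h10.symm)

end Vale.Agent.P092.H632.T
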