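import Vale.Agent.P092.H632.T.K

/-!
Bessel inequality, finite dimensionality of `Q^D e` for a minimal projection `e`.
-/

set_option linter.all false

open scoped InnerProductSpace ENNReal
open Filter Topology ContinuousLinearMap

namespace Vale.Agent.P092.H632.T

open Vale.Agent.P092.H160 (Cmm)
open Vale.Agent.P092.H628 (sq RInv fn Com esq enorm_adj adj_mul adj_adj enorm_le_op EE esum
  ee_memℓp ee_norm col col_apply col_norm sq_swap sq_congr sq_mono sq_mul_left sq_const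
  sq_translate sq_sub sq_part sq_conj sq_tsum VolBd)

variable {Γ Λ : Type} [Group Γ] [Group Λ] {H : Type} [NormedAddCommGroup H]
  [InnerProductSpace ℂ H] [CompleteSpace H] {κ κ' : Type} [Fintype κ] [Fintype κ']
  {lam : Γ →* (H →L[ℂ] H)} {R : Λ →* (H →L[ℂ] H)} {ω : κ' → H} {ξ : κ → H} {𝒰 : Set (Subgroup Γ)}
  {D : Subgroup Λ}

theorem AA_one (h : Sys lam R ω ξ 𝒰) {x : H →L[ℂ] H} (hx : Qd lam R ξ 𝒰 D x) (ζ : H) :
    ∃ k ∈ D, AA h hx ζ ((1 : Λ) : Λ ⧸ D) = R k (x ζ) := by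
  obtain ⟨k, hk⟩ := QuotientGroup.mk_out_eq_mul D (1 : Λ)
  refine ⟨(k : Λ)⁻¹, D.inv_mem k.2, ?_⟩
  rw [AA_apply, hk, one_mul, hx.comR.apply (D.inv_mem k.2)]

/-- Bessel inequality. -/
theorem bessel (h : Sys lam R ω ξ 𝒰) {n : ℕ} {x : Fin n → H →L[ℂ] H}
    (hx : ∀ i, Qd lam R ξ 𝒰 D (x i))
    (ho : ∀ i j, ip R D ξ (x i) (x j) = if i = j then 1 else 0) (η : H) :
    ‖∑ i, x i (adjoint (x i) η)‖ ≤ ‖η‖ := by
  set T : H := ∑ i, x i (adjoint (x i) η) with hT
  set Z : EE (Λ ⧸ D) H := ∑ i, AA h (hx i) (adjoint (x i) η) with hZ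
  have h1 : ⟪Z, Z⟫_ℂ = ⟪η, T⟫_ℂ := by
    rw [hZ, hT]
    simp only [sum_inner, inner_sum]
    have : ∀ i j : Fin n, ⟪AA h (hx i) (adjoint (x i) η), AA h (hx j) (adjoint (x j) η)⟫_ℂ
        = if i = j then ⟪η, x i (adjoint (x i) η)⟫_ℂ else 0 := by
      intro i j
      rw [AA_inner, ho]
      split_ifs with hij
      · subst hij
        rw [one_mul, adjoint_inner_left]
      · rw [zero_mul]
    simp only [this]
    rw [Finset.sum_comm]
    simp
  have h2 : ‖Z‖ ^ 2 ≤ ‖η‖ * ‖T‖ := by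
    rw [inner_self_eq_norm_sq_to_K] at h1
    have h3 : (‖Z‖ ^ 2 : ℝ) = (⟪η, T⟫_ℂ).re := by
      rw [← h1]
      norm_cast
    rw [h3]
    exact (Complex.re_le_norm _).trans (norm_inner_le_norm _ _)
  have h3 : ‖T‖ ≤ ‖Z‖ := by
    have h4 : Z ((1 : Λ) : Λ ⧸ D) = R ((1 : Λ) : Λ ⧸ D).out⁻¹ T := by
      rw [hZ, lp.coeFn_sum, Finset.sum_apply, hT, map_sum]
      refine Finset.sum_congr rfl fun i _ => ?_
      obtain ⟨k, hk⟩ := QuotientGroup.mk_out_eq_mul D (1 : Λ)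
      rw [AA_apply, hk, one_mul, (hx i).comR.apply (D.inv_mem k.2)]
    have h5 : ‖T‖ = ‖Z ((1 : Λ) : Λ ⧸ D)‖ := by
      rw [h4, h.regR.norm_map]
    rw [h5]
    exact lp.norm_apply_le_norm (by norm_num) Z _
  by_cases hT0 : ‖T‖ = 0
  · rw [hT0]; exact norm_nonneg _
  · have hTpos : 0 < ‖T‖ := lt_of_le_of_ne (norm_nonneg _) (Ne.symm hT0)
    have h6 : ‖T‖ * ‖T‖ ≤ ‖η‖ * ‖T‖ := by
      calc ‖T‖ * ‖T‖ = ‖T‖ ^ 2 := by ring
        _ ≤ ‖Z‖ ^ 2 := by gcongr
        _ ≤ _ := h2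
    exact le_of_mul_le_mul_right h6 hTpos

theorem ip_add_smul_left {K : Subgroup Λ} {x y z : H →L[ℂ] H} (hx : nn R K ξ x ≠ ∞)
    (hy : nn R K ξ y ≠ ∞) (hz : nn R K ξ z ≠ ∞) (c : ℂ) :
    ip R K ξ z (x + c • y) = ip R K ξ z x + c * ip R K ξ z y := by
  rw [ip_eq _ _ hz (nn_add_ne hx (nn_smul_ne c hy)), ip_eq _ _ hz hx, ip_eq _ _ hz hy,
    ← inner_smul_right, ← inner_add_right]
  rfl

theorem ip_symm {K : Subgroup Λ} {x y : H →L[ℂ] H} (hx : nn R K ξ x ≠ ∞)
    (hy : nn R K ξ y ≠ ∞) : (starRingEnd ℂ) (ip R K ξ x y) = ip R K ξ y x := by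
  rw [ip_eq _ _ hx hy, ip_eq _ _ hy hx, inner_conj_symm]

theorem ip_sum {K : Subgroup Λ} {n : ℕ} {x : Fin n → H →L[ℂ] H} {z : H →L[ℂ] H}
    (hx : ∀ i, nn R K ξ (x i) ≠ ∞) (hz : nn R K ξ z ≠ ∞) (c : Fin n → ℂ) :
    ip R K ξ z (∑ i, c i • x i) = ∑ i, c i * ip R K ξ z (x i) := by
  have hf : nn R K ξ (∑ i, c i • x i) ≠ ∞ := nn_sum_ne _ fun i _ => nn_smul_ne _ (hx i)
  have e1 : vec (∑ i, c i • x i) hf = ∑ i, c i • vec (x i) (hx i) := by
    ext q
    rw [vec_apply, lp.coeFn_sum, Finset.sum_apply]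
    simp only [ContinuousLinearMap.sum_apply, ContinuousLinearMap.smul_apply]
    rfl
  rw [ip_eq _ _ hz hf, e1, inner_sum]
  refine Finset.sum_congr rfl fun i _ => ?_
  rw [inner_smul_right, ip_eq _ _ hz (hx i)]

/-- For `x, y` with `x* y = c e`: `ip x y = c * ip e e`. -/
theorem ip_of_mul {K : Subgroup Λ} {x y e : H →L[ℂ] H} {c : ℂ} (he : adjoint e = e)
    (hee : e * e = e) (hc : adjoint x * y = c • e) : ip R K ξ x y = c * ip R K ξ e e := by
  unfold ip
  rw [← tsum_mul_left]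
  refine tsum_congr fun q => ?_
  rw [← adjoint_inner_right x, ← H160.mul_ap, hc, ContinuousLinearMap.smul_apply,
    inner_smul_right]
  congr 1
  conv_lhs => rw [← hee]
  rw [H160.mul_ap, ← adjoint_inner_left, he]

namespace Mn

variable {e : H →L[ℂ] H}

theorem act (h : Sys lam R ω ξ 𝒰) (he : Mn lam R ξ 𝒰 D e) (g : Γ) :
    Mn lam R ξ 𝒰 D (lam g * e * lam g⁻¹) := by
  have hi : lam g * lam g⁻¹ = 1 := by rw [← map_mul, mul_inv_cancel, map_one]
  have hi' : lam g⁻¹ * lam g = 1 := by rw [← map_mul, inv_mul_cancel, map_one]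
  refine ⟨he.mem.act h g, ?_, ?_, ?_, ?_⟩
  · intro h0
    apply he.ne
    have : lam g⁻¹ * (lam g * e * lam g⁻¹) * lam g = e := by
      calc lam g⁻¹ * (lam g * e * lam g⁻¹) * lam g
          = (lam g⁻¹ * lam g) * e * (lam g⁻¹ * lam g) := by simp only [mul_assoc]
        _ = e := by rw [hi', one_mul, mul_one]
    rw [← this, h0, mul_zero, zero_mul]
  · rw [adj_mul, adj_mul, h.regL.adj, h.regL.adj, inv_inv, he.adj, mul_assoc]
  · calc lam g * e * lam g⁻¹ * (lam g * e * lam g⁻¹)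
        = lam g * e * (lam g⁻¹ * lam g) * e * lam g⁻¹ := by simp only [mul_assoc]
      _ = lam g * (e * e) * lam g⁻¹ := by rw [hi', mul_one]; simp only [mul_assoc]
      _ = _ := by rw [he.idem]
  · intro x hx
    obtain ⟨c, hc⟩ := he.min _ (hx.act h g⁻¹)
    rw [inv_inv] at hc
    refine ⟨c, ?_⟩
    calc lam g * e * lam g⁻¹ * x * (lam g * e * lam g⁻¹)
        = lam g * (e * (lam g⁻¹ * x * lam g) * e) * lam g⁻¹ := by simp only [mul_assoc]
      _ = c • (lam g * e * lam g⁻¹) := by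
          rw [hc, mul_smul_comm, smul_mul_assoc]

/-- `x* y` is a multiple of `e` for `x, y ∈ Q e`. -/
theorem exists_mul (h : Sys lam R ω ξ 𝒰) (he : Mn lam R ξ 𝒰 D e) {x y : H →L[ℂ] H}
    (hx : Qd lam R ξ 𝒰 D x) (hy : Qd lam R ξ 𝒰 D y) (hxe : x * e = x) (hye : y * e = y) :
    adjoint x * y = (ip R D ξ x y / ip R D ξ e e) • e := by
  obtain ⟨c, hc⟩ := he.min _ ((hx.adj h).mul h hy)
  have h1 : adjoint x * y = c • e := by
    rw [← hc]
    have : adjoint x = e * adjoint x := by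
      conv_lhs => rw [← hxe]
      rw [adj_mul, he.adj]
    calc adjoint x * y = (e * adjoint x) * (y * e) := by rw [← this, hye]
      _ = _ := by simp only [mul_assoc]
  have h2 := ip_of_mul (R := R) (ξ := ξ) (K := D) he.adj he.idem h1
  have h3 : ip R D ξ e e ≠ 0 := by
    rw [ip_self _ he.mem.fin]
    have := one_le_nn h he.mem he.ne he.idem
    have h4 : (nn R D ξ e).toReal ≠ 0 := by
      rw [ENNReal.toReal_ne_zero]
      exact ⟨fun h0 => by rw [h0] at this; simp at this, he.mem.fin⟩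
    exact_mod_cast h4
  rw [h1, h2, mul_div_cancel_right₀ _ h3]

theorem norm_eq_one (he : Mn lam R ξ 𝒰 D e) : ∃ η : H, η ≠ 0 ∧ e η = η := by
  obtain ⟨ζ, hζ⟩ : ∃ ζ, e ζ ≠ 0 := by
    by_contra hc
    exact he.ne (ContinuousLinearMap.ext fun ζ => by
      by_contra h1
      exact hc ⟨ζ, h1⟩)
  exact ⟨e ζ, hζ, by rw [← H160.mul_ap, he.idem]⟩

/-- orthonormal families in `Q e` are bounded -/
theorem card_le (h : Sys lam R ω ξ 𝒰) (he : Mn lam R ξ 𝒰 D e) {n : ℕ} {x : Fin n → H →L[ℂ] H}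
    (hx : ∀ i, Qd lam R ξ 𝒰 D (x i)) (hxe : ∀ i, x i * e = x i)
    (ho : ∀ i j, ip R D ξ (x i) (x j) = if i = j then 1 else 0) :
    (n : ℝ) ≤ (nn R D ξ e).toReal := by
  obtain ⟨η, hη, heη⟩ := he.norm_eq_one
  have h1 := bessel h (x := fun i => adjoint (x i)) (fun i => (hx i).adj h) (by
    intro i j
    rw [← ip_adjoint h.regR (hx j).comR (hx i).comR (hx j).fin (hx i).fin, ho]
    by_cases hij : i = j
    · simp [hij]
    · rw [if_neg hij, if_neg (Ne.symm hij)]) η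
  have h2 : ∀ i, adjoint (x i) (adjoint (adjoint (x i)) η) = (1 / ip R D ξ e e) • η := by
    intro i
    have h3 := exists_mul h he (hx i) (hx i) (hxe i) (hxe i)
    rw [ho, if_pos rfl] at h3
    rw [adj_adj, ← H160.mul_ap, h3, ContinuousLinearMap.smul_apply, heη]
  simp only [h2] at h1
  rw [Finset.sum_const, Finset.card_univ, Fintype.card_fin, ip_self _ he.mem.fin,
    ← Nat.cast_smul_eq_nsmul ℂ, norm_smul, norm_smul, Complex.norm_natCast] at h1
  have hN : 0 < (nn R D ξ e).toReal := by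
    have := one_le_nn h he.mem he.ne he.idem
    exact ENNReal.toReal_pos (fun h0 => by rw [h0] at this; simp at this) he.mem.fin
  have hη' : 0 < ‖η‖ := norm_pos_iff.mpr hη
  have h4 : ‖(1 : ℂ) / ((nn R D ξ e).toReal : ℂ)‖ = 1 / (nn R D ξ e).toReal := by
    rw [norm_div, norm_one, Complex.norm_real, Real.norm_of_nonneg hN.le]
  rw [h4] at h1
  have h5 : (n : ℝ) * (1 / (nn R D ξ e).toReal * ‖η‖) = (n / (nn R D ξ e).toReal) * ‖η‖ := by
    ring
  rw [h5] at h1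
  have h6 : (n : ℝ) / (nn R D ξ e).toReal ≤ 1 := by
    by_contra hc
    rw [not_le] at hc
    nlinarith
  rwa [div_le_one hN] at h6

/-- a finite orthonormal basis of `Q e` -/
theorem exists_basis (h : Sys lam R ω ξ 𝒰) (he : Mn lam R ξ 𝒰 D e) :
    ∃ (n : ℕ) (x : Fin n → H →L[ℂ] H), (∀ i, Qd lam R ξ 𝒰 D (x i)) ∧ (∀ i, x i * e = x i) ∧
      (∀ i j, ip R D ξ (x i) (x j) = if i = j then 1 else 0) ∧
      ∀ y, Qd lam R ξ 𝒰 D y → y * e = y → y = ∑ i, ip R D ξ (x i) y • x i := by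
  classical
  let P : ℕ → Prop := fun n => ∃ x : Fin n → H →L[ℂ] H, (∀ i, Qd lam R ξ 𝒰 D (x i)) ∧
    (∀ i, x i * e = x i) ∧ (∀ i j, ip R D ξ (x i) (x j) = if i = j then 1 else 0)
  have hP0 : P 0 := ⟨fun i => i.elim0, fun i => i.elim0, fun i => i.elim0, fun i => i.elim0⟩
  have hb : ¬ ∀ n, P n := by
    intro hall
    obtain ⟨m, hm⟩ := exists_nat_gt (nn R D ξ e).toReal
    obtain ⟨x, h1, h2, h3⟩ := hall m
    exact absurd (card_le h he h1 h2 h3) (not_le.mpr hm)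
  obtain ⟨n, hn, hn1⟩ : ∃ n, P n ∧ ¬ P (n + 1) := by
    by_contra hc
    refine hb fun n => ?_
    induction n with
    | zero => exact hP0
    | succ n ih => by_contra h1; exact hc ⟨n, ih, h1⟩
  obtain ⟨x, h1, h2, h3⟩ := hn
  refine ⟨n, x, h1, h2, h3, fun y hy hye => ?_⟩
  have hfx : ∀ i, nn R D ξ (x i) ≠ ∞ := fun i => (h1 i).fin
  set S : H →L[ℂ] H := ∑ i, ip R D ξ (x i) y • x i with hS
  have hSQ : Qd lam R ξ 𝒰 D S := by
    have : ∀ s : Finset (Fin n), Qd lam R ξ 𝒰 D (∑ i ∈ s, ip R D ξ (x i) y • x i) := by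
      intro s
      induction s using Finset.induction_on with
      | empty => simpa using Qd.zero h
      | insert a s ha ih =>
        rw [Finset.sum_insert ha]
        exact ((h1 a).smul _).add h ih
    exact this _
  have hz : Qd lam R ξ 𝒰 D (y - S) := hy.sub h hSQ
  have hSe : S * e = S := by
    rw [hS, Finset.sum_mul]
    exact Finset.sum_congr rfl fun i _ => by rw [smul_mul_assoc, h2]
  have hze : (y - S) * e = y - S := by rw [sub_mul, hye, hSe]
  have hort : ∀ j, ip R D ξ (x j) (y - S) = 0 := by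
    intro j
    have e1 : y - S = y + (-1 : ℂ) • S := by rw [neg_one_smul, sub_eq_add_neg]
    rw [e1, ip_add_smul_left hy.fin hSQ.fin (hfx j), hS, ip_sum hfx (hfx j)]
    simp [h3]
  have h4 : nn R D ξ (y - S) = 0 := by
    by_contra hne
    apply hn1
    set t : ℝ := (nn R D ξ (y - S)).toReal with ht
    have htpos : 0 < t := ENNReal.toReal_pos hne hz.fin
    let z : H →L[ℂ] H := (((Real.sqrt t)⁻¹ : ℝ) : ℂ) • (y - S)
    have hzz : ip R D ξ z z = 1 := by
      rw [ip_self z (nn_smul_ne _ hz.fin), nn_smul, ENNReal.toReal_mul, ← ht]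
      have : (‖(((Real.sqrt t)⁻¹ : ℝ) : ℂ)‖ₑ ^ 2).toReal = t⁻¹ := by
        rw [esq, ENNReal.toReal_ofReal (by positivity), Complex.norm_real, Real.norm_eq_abs,
          sq_abs, inv_pow, Real.sq_sqrt htpos.le]
      rw [this, inv_mul_cancel₀ htpos.ne']
      norm_num
    have hxz : ∀ j, ip R D ξ (x j) z = 0 := by
      intro j
      rw [ip_eq _ _ (hfx j) (nn_smul_ne _ hz.fin)]
      have : vec z (nn_smul_ne _ hz.fin)
          = (((Real.sqrt t)⁻¹ : ℝ) : ℂ) • vec (y - S) hz.fin := rfl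
      rw [this, inner_smul_right, ← ip_eq _ _ (hfx j) hz.fin, hort, mul_zero]
    have hzx : ∀ j, ip R D ξ z (x j) = 0 := by
      intro j
      rw [← ip_symm (hfx j) (nn_smul_ne _ hz.fin), hxz, map_zero]
    refine ⟨Fin.snoc x z, ?_, ?_, ?_⟩
    · intro i
      refine Fin.lastCases ?_ (fun i => ?_) i
      · rw [Fin.snoc_last]; exact hz.smul _
      · rw [Fin.snoc_castSucc]; exact h1 i
    · intro i
      refine Fin.lastCases ?_ (fun i => ?_) i
      · rw [Fin.snoc_last]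
        show (_ • (y - S)) * e = _ • (y - S)
        rw [smul_mul_assoc, hze]
      · rw [Fin.snoc_castSucc]; exact h2 i
    · intro i j
      refine Fin.lastCases ?_ (fun i => ?_) i
      · refine Fin.lastCases ?_ (fun j => ?_) j
        · rw [Fin.snoc_last, if_pos rfl]; exact hzz
        · rw [Fin.snoc_last, Fin.snoc_castSucc, hzx, if_neg]
          exact (Fin.castSucc_lt_last j).ne'
      · refine Fin.lastCases ?_ (fun j => ?_) j
        · rw [Fin.snoc_last, Fin.snoc_castSucc, hxz, if_neg]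
          exact (Fin.castSucc_lt_last i).ne
        · rw [Fin.snoc_castSucc, Fin.snoc_castSucc, h3]
          simp
  have h5 := nn_eq_zero h.regR hz.comR h4
  exact sub_eq_zero.mp h5

end Mn

end Vale.Agent.P092.H632.T
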