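import Vale.Agent.P092.H632.T.TorE
import Vale.Agent.P092.H632.VolG
import Vale.Agent.P092.H333.ErgJ
import Vale.Agent.P092.H58.Frame

/-!
The torsion theorem for the corner `α 1 ℓ²(I × Λ)` of an amplified frame `α`, and the ergodicity of
the stripped comultiplication for arbitrary ICC groups `Λ`.
-/

set_option linter.all false

open scoped InnerProductSpace ENNReal
open Filter Topology ContinuousLinearMap Matrix

namespace Vale.Agent.P092.H632.T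

open Vale.Agent.P092.H160 Vale.Agent.P092.H103 Vale.Agent.P092.H333 Vale.Agent.P092.H962
open Vale.Agent.P092.H628 (esq Com)

section fra

variable {G : Type} [Group G] {H : Type} [NormedAddCommGroup H] [InnerProductSpace ℂ H]
    [CompleteSpace H] {κ : Type} [Fintype κ] {π : G →* (H →L[ℂ] H)} {ζ : κ → H}

/-- the normalised frame of a Parseval frame -/
theorem Fra.of_real (ha : ∀ g, adjoint (π g) = π g⁻¹) (h0 : ∃ k, ζ k ≠ 0)
    (hp : ∀ u, HasSum (fun x : κ × G => ‖⟪π x.2 (ζ x.1), u⟫_ℂ‖ ^ 2) (‖u‖ ^ 2)) :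
    Fra π (fun k => (((Real.sqrt (∑ k, ‖ζ k‖ ^ 2))⁻¹ : ℝ) : ℂ) • ζ k) := by
  set D : ℝ := ∑ k, ‖ζ k‖ ^ 2 with hD
  have hDpos : 0 < D := by
    obtain ⟨k, hk⟩ := h0
    refine Finset.sum_pos' (fun _ _ => by positivity) ⟨k, Finset.mem_univ k, ?_⟩
    have := norm_pos_iff.mpr hk
    positivity
  set c : ℝ := (Real.sqrt D)⁻¹ with hc
  have hc0 : 0 < c := by positivity
  have hc2 : c ^ 2 = D⁻¹ := by rw [hc, inv_pow, Real.sq_sqrt hDpos.le]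
  refine ⟨ha, ?_, ENNReal.ofReal (c ^ 2), ?_, ENNReal.ofReal_ne_top, fun u => ?_⟩
  · have h1 : ∀ k, ‖((c : ℂ) • ζ k)‖ₑ ^ 2 = ENNReal.ofReal (c ^ 2 * ‖ζ k‖ ^ 2) := by
      intro k
      rw [esq, norm_smul, mul_pow, Complex.norm_real, Real.norm_eq_abs, sq_abs]
    simp only [h1]
    rw [← ENNReal.ofReal_sum_of_nonneg fun _ _ => by positivity, ← Finset.mul_sum, ← hD, hc2,
      inv_mul_cancel₀ hDpos.ne', ENNReal.ofReal_one]
  · rw [ne_eq, ENNReal.ofReal_eq_zero, not_le]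
    positivity
  · have h1 : ∀ k g, ‖⟪π g ((c : ℂ) • ζ k), u⟫_ℂ‖ₑ ^ 2 =
        ENNReal.ofReal (c ^ 2) * ENNReal.ofReal (‖⟪π g (ζ k), u⟫_ℂ‖ ^ 2) := by
      intro k g
      rw [esq, map_smul, inner_smul_left, norm_mul, mul_pow, RCLike.norm_conj, Complex.norm_real,
        Real.norm_eq_abs, sq_abs, ENNReal.ofReal_mul (by positivity)]
    simp only [h1]
    simp only [ENNReal.tsum_mul_left]
    rw [← Finset.mul_sum, esq, ← (hp u).tsum_eq,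
      ENNReal.ofReal_tsum_of_nonneg (fun _ => by positivity) (hp u).summable,
      ENNReal.tsum_prod', tsum_fintype]

theorem hs_congr' {β : Type} {f g : β → ℝ} {a : ℝ} (h : ∀ b, f b = g b) (hf : HasSum g a) :
    HasSum f a := (funext h) ▸ hf

end fra

section af

variable {I Λ Γ : Type} [Group Λ] [Group Γ] [Fintype I]
  {α : Γ → (Ell2 (I × Λ) →L[ℂ] Ell2 (I × Λ))}

/-- the representation of `Γ` on the corner -/
noncomputable def laE (hα : AF α) : Γ →* (Ep (α 1) →L[ℂ] Ep (α 1)) where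
  toFun g := aE hα g
  map_one' := aE_one hα
  map_mul' g h := aE_mul hα g h

theorem laE_apply (hα : AF α) (g : Γ) : laE hα g = aE hα g := rfl

theorem exists_ne (hα : AF α) : ∃ i : I, prj (pA_prj hα) (dl (i, (1 : Λ))) ≠ 0 := by
  by_contra hc
  push Not at hc
  apply hα.ne
  refine FS.ext_base (FS.mat I Λ) (FS.mat I Λ) (hα.comm 1) (fun _ _ => ?_) fun i => ?_
  · rw [ContinuousLinearMap.zero_apply, ContinuousLinearMap.zero_apply, map_zero]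
  · rw [FS.mat_base, ContinuousLinearMap.zero_apply]
    have h1 := congrArg (inc (α 1)) (hc i)
    rw [inc_prj, map_zero] at h1
    exact h1

theorem rE_adj (hα : AF α) (s : Λ) : adjoint (rE hα s) = rE hα s⁻¹ := by
  change adjoint (cmp (pA_prj hα) ((FS.mat I Λ).R s)) = cmp (pA_prj hα) ((FS.mat I Λ).R s⁻¹)
  rw [adjoint_cmp, FS.R_adj]

/-- The frame of the right translations. -/
theorem fra_rE (hα : AF α) : Fra (rE hα) (fun i : I =>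
    (((Real.sqrt (∑ i : I, ‖prj (pA_prj hα) (dl (i, (1 : Λ)))‖ ^ 2))⁻¹ : ℝ) : ℂ) •
      prj (pA_prj hα) (dl (i, (1 : Λ)))) := by
  refine Fra.of_real (rE_adj hα) (exists_ne hα) fun u => ?_
  have h1 : ∀ x : I × Λ, ⟪rE hα x.2 (prj (pA_prj hα) (dl (x.1, (1 : Λ)))), u⟫_ℂ =
      (inc (α 1) u) (x.1, x.2⁻¹) := by
    rintro ⟨i, s⟩
    simp only
    rw [← inner_inc, inc_rE, inc_prj, ← hα.comm 1, hα.p_left]
    have h2 : α 1 (inc (α 1) u) = inc (α 1) u := p_inc _ u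
    rw [h2, FS.R_dl, FS.mat_act, one_mul, inner_dl]
  simp only [h1]
  have h2 : HasSum (fun x : I × Λ => ‖(inc (α 1) u) x‖ ^ 2) (‖inc (α 1) u‖ ^ 2) := by
    rw [H160.norm_sq]
    exact (summable_sq _).hasSum
  let e : I × Λ ≃ I × Λ := Equiv.prodCongr (Equiv.refl I) (Equiv.inv Λ)
  have h3 := (e.hasSum_iff (f := fun x : I × Λ => ‖(inc (α 1) u) x‖ ^ 2)).mpr h2
  exact h3

/-- The frame of `α`. -/
theorem exists_fra_laE (hα : AF α)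
    (hΛ : ∀ s : Λ, s ≠ 1 → Set.Infinite {y : Λ | ∃ h, y = h * s * h⁻¹}) :
    ∃ (m : ℕ) (ω : Fin m → Ep (α 1)), Fra (laE hα) ω := by
  obtain ⟨m, ζ, h1, h2, h3⟩ := H58.exists_frame hα hΛ
  let ζ' : Fin m → Ep (α 1) := fun k => ⟨ζ k, mem_Ep.2 (h1 k)⟩
  refine ⟨m, _, Fra.of_real (ζ := ζ') (aE_adj hα) ?_ fun u => ?_⟩
  · by_contra hc
    push Not at hc
    have h4 : ∀ k, ζ k = 0 := fun k => congrArg Subtype.val (hc k)
    have h5 : (dm α)⁻¹ = 0 := by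
      rw [← h2]
      simp [h4]
    exact (inv_ne_zero (dm_pos hα).ne') h5
  · have h4 := h3 (inc (α 1) u)
    have h5 : ‖α 1 (inc (α 1) u)‖ = ‖u‖ := by
      rw [show α 1 (inc (α 1) u) = inc (α 1) u from p_inc _ u, norm_inc]
    rw [h5] at h4
    refine hs_congr' (fun x => ?_) h4
    rw [laE_apply, ← inner_inc, inc_aE]
    rfl

/-- `α(Γ)' ⊆ R(Λ)''` on the corner. -/
theorem bicE (hα : AF α) : Bic (laE hα) (rE hα) := by
  intro x y hx hy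
  have h1 : ∀ g, ext (pA_prj hα) x * α g = α g * ext (pA_prj hα) x := fun g =>
    ext_comm (pA_prj hα) (pA_al hα g) (hx g)
  have h2 : Eqv (FS.mat I Λ).R (FS.mat I Λ).R (ext (pA_prj hα) y) := fun s v => by
    have h3 := ext_comm (pA_prj hα) (pA_R hα s) (hy s)
    exact congrArg (fun L : Ell2 (I × Λ) →L[ℂ] Ell2 (I × Λ) => L v) h3
  have h3 := hα.bicomm h1 h2 (p_ext (pA_prj hα) y) (ext_p (pA_prj hα) y)
  have h4 : ∀ a b : Ep (α 1) →L[ℂ] Ep (α 1),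
      cmp (pA_prj hα) (ext (pA_prj hα) a * ext (pA_prj hα) b) = a * b := by
    intro a b
    rw [cmp_mul _ (by rw [p_ext, ext_p]), cmp_ext, cmp_ext]
  rw [← h4, h3, h4]

/-- The setting of the torsion theorem. -/
theorem sysE (hα : AF α) {m : ℕ} {ω : Fin m → Ep (α 1)} (hω : Fra (laE hα) ω)
    {𝒰 : Set (Subgroup Γ)} (ne : 𝒰.Nonempty) (up : ∀ U ∈ 𝒰, ∀ S : Subgroup Γ, U ≤ S → S ∈ 𝒰)
    (inf : ∀ U ∈ 𝒰, ∀ U' ∈ 𝒰, U ⊓ U' ∈ 𝒰)
    (conj : ∀ U ∈ 𝒰, ∀ g : Γ, ∃ U' ∈ 𝒰, ∀ k ∈ U', g⁻¹ * k * g ∈ U)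
    (hr : ∀ U ∈ 𝒰, RIcc (U : Set Γ)) :
    Sys (laE hα) (rE hα) ω (fun i : I =>
      (((Real.sqrt (∑ i : I, ‖prj (pA_prj hα) (dl (i, (1 : Λ)))‖ ^ 2))⁻¹ : ℝ) : ℂ) •
      prj (pA_prj hα) (dl (i, (1 : Λ)))) 𝒰 where
  regL := hω
  regR := fra_rE hα
  comm g v := by
    obtain ⟨U, hU⟩ := ne
    ext1 e
    apply inc_inj
    change inc (α 1) (aE hα g (rE hα v e)) = inc (α 1) (rE hα v (aE hα g e))
    rw [inc_aE, inc_rE, inc_rE, inc_aE]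
    exact hα.comm g v _
  ne := ne
  up := up
  inf := inf
  conj := conj
  irr U hU T hT hR := (irrM hα (hr U hU)).irr T (fun s => hR s) (by
    rintro _ ⟨k, rfl⟩
    exact hT k k.2)

theorem exists_unit (hα : AF α) : ∃ ξ : Ep (α 1), ‖ξ‖ = 1 := by
  obtain ⟨i, hw⟩ := exists_ne hα
  refine ⟨((‖prj (pA_prj hα) (dl (i, (1 : Λ)))‖⁻¹ : ℝ) : ℂ) • prj (pA_prj hα) (dl (i, (1 : Λ))), ?_⟩
  rw [norm_smul, Complex.norm_real, norm_inv, norm_norm, inv_mul_cancel₀ (norm_ne_zero_iff.2 hw)]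

/-- **No class.** -/
theorem noClsT (hα : AF α)
    (hΛ : ∀ s : Λ, s ≠ 1 → Set.Infinite {y : Λ | ∃ h, y = h * s * h⁻¹})
    {𝒰 : Set (Subgroup Γ)} {Θ₀ : Subgroup Γ}
    (up : ∀ U ∈ 𝒰, ∀ S : Subgroup Γ, U ≤ S → S ∈ 𝒰)
    (inf : ∀ U ∈ 𝒰, ∀ U' ∈ 𝒰, U ⊓ U' ∈ 𝒰)
    (conj : ∀ U ∈ 𝒰, ∀ g : Γ, ∃ U' ∈ 𝒰, ∀ k ∈ U', g⁻¹ * k * g ∈ U)
    (hr : ∀ U ∈ 𝒰, RIcc (U : Set Γ)) (hV : H628.VolBd 𝒰 Θ₀) {U : Subgroup Γ} (hU : U ∈ 𝒰) :
    NoClsT hα (U : Set Γ) := by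
  obtain ⟨m, ω, hω⟩ := exists_fra_laE hα hΛ
  have hS := sysE hα hω ⟨U, hU⟩ up inf conj hr
  obtain ⟨e, he⟩ := exists_unit hα
  refine ⟨e, fun s hs S hc => ?_⟩
  refine tor hS hV (bicE hα) hΛ hs ⟨U, hU, fun g hg => hc.ca _ ⟨⟨g, hg⟩, rfl⟩,
    fun c hc' => hc.cr c hc', ?_⟩
  unfold nn
  refine ENNReal.sum_ne_top.mpr fun i _ => ?_
  obtain ⟨h1, -⟩ := H776.TC.ClsM.form (irrM hα (hr U hU)) he hc
    ((((Real.sqrt (∑ i : I, ‖prj (pA_prj hα) (dl (i, (1 : Λ)))‖ ^ 2))⁻¹ : ℝ) : ℂ) •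
      prj (pA_prj hα) (dl (i, (1 : Λ))))
  have h2 : H628.sq (Subgroup.centralizer {s}) (H628.fn (rE hα)
      ((((Real.sqrt (∑ i : I, ‖prj (pA_prj hα) (dl (i, (1 : Λ)))‖ ^ 2))⁻¹ : ℝ) : ℂ) •
      prj (pA_prj hα) (dl (i, (1 : Λ)))) S)
      = ENNReal.ofReal (∑' q : Λ ⧸ Subgroup.centralizer {s}, ‖S (rE hα (q.out)⁻¹
      ((((Real.sqrt (∑ i : I, ‖prj (pA_prj hα) (dl (i, (1 : Λ)))‖ ^ 2))⁻¹ : ℝ) : ℂ) •
      prj (pA_prj hα) (dl (i, (1 : Λ)))))‖ ^ 2) := by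
    rw [ENNReal.ofReal_tsum_of_nonneg (fun _ => by positivity) h1]
    unfold H628.sq H628.fn
    exact tsum_congr fun q => esq _
  rw [h2]
  exact ENNReal.ofReal_ne_top

end af

section SL

variable {I Λ Γ : Type} [Group Λ] [Group Γ] [Fintype I]
  {α : Γ → (Ell2 (I × Λ) →L[ℂ] Ell2 (I × Λ))}
  {k : Type} [NontriviallyNormedField k] [IsUltrametricDist k] [ProperSpace k] {N : ℕ}

theorem open_mem_flt (p : Γ →* SpecialLinearGroup (Fin N) k)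
    {U : Subgroup (SpecialLinearGroup (Fin N) k)}
    (hU : IsOpen (U : Set (SpecialLinearGroup (Fin N) k))) : U.comap p ∈ flt p := by
  refine ⟨U ⊓ int N k, hU.inter isOpen_int, ?_, Subgroup.comap_mono inf_le_left⟩
  exact H971.isCompact_of_le (hU.inter isOpen_int) isCompact_int inf_le_right

/-- **Ergodicity of the stripped comultiplication, `Λ` an arbitrary ICC group, any `t`.** -/
theorem ergU_SL (hα : AF α)
    (hΛ : ∀ s : Λ, s ≠ 1 → Set.Infinite {y : Λ | ∃ h, y = h * s * h⁻¹})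
    (hN : 2 ≤ N) {p : Γ →* SpecialLinearGroup (Fin N) k} (hp : DenseRange p)
    (ho : ∀ h : Γ, h ≠ 1 → ∀ U : Subgroup (SpecialLinearGroup (Fin N) k),
      IsOpen (U : Set (SpecialLinearGroup (Fin N) k)) →
      {x : Γ | ∃ g ∈ U.comap p, x = g * h * g⁻¹}.Infinite)
    {U : Subgroup (SpecialLinearGroup (Fin N) k)}
    (hU : IsOpen (U : Set (SpecialLinearGroup (Fin N) k))) :
    ErgU α (U.comap p : Set Γ) := by
  refine ergU_of hα (fun h hh => ho h hh U hU) ?_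
  refine noClsT hα hΛ (𝒰 := flt p) (fun U hU S hS => flt_up hU hS)
    (fun U hU U' hU' => flt_inf hU hU') (fun U hU g => flt_conj hU g) ?_ (volBd hN hp)
    (open_mem_flt p hU)
  rintro S ⟨K, hK, -, hKS⟩ h hh
  refine (ho h hh K hK).mono ?_
  rintro x ⟨g, hg, rfl⟩
  exact ⟨g, hKS hg, rfl⟩

end SL

end Vale.Agent.P092.H632.T
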