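import Vale.Agent.P092.H628.TorHS

/-!
Relative Hilbert-Schmidt norms with respect to a finite Parseval frame: for a unitary
representation `π` of `G` with frame `ξ k`, a subgroup `K` and an operator `x` commuting with
`π(K)`, `nn π K ξ x = ∑_k ∑_{q ∈ G ⧸ K} ‖x π(q)⁻¹ ξ_k‖²`.
-/

set_option linter.all false

open scoped InnerProductSpace ENNReal
open Filter Topology ContinuousLinearMap

namespace Vale.Agent.P092.H632.T

open Vale.Agent.P092.H160 (Cmm)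
open Vale.Agent.P092.H628 (sq RInv fn Com esq enorm_adj adj_mul adj_adj enorm_le_op
  enorm_inner_symm sq_swap sq_congr sq_mono sq_mul_left sq_const sq_translate sq_sub sq_part
  sq_conj sq_tsum)

section gen

variable {G : Type} [Group G] {H : Type} [NormedAddCommGroup H] [InnerProductSpace ℂ H]
    [CompleteSpace H] {κ : Type} [Fintype κ] {π : G →* (H →L[ℂ] H)} {ξ : κ → H} {K : Subgroup G}

/-- A unitary representation with a (normalised) finite frame. -/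
structure Fra (π : G →* (H →L[ℂ] H)) (ξ : κ → H) : Prop where
  adj : ∀ g, adjoint (π g) = π g⁻¹
  nrm : ∑ k, ‖ξ k‖ₑ ^ 2 = 1
  par : ∃ T : ℝ≥0∞, T ≠ 0 ∧ T ≠ ∞ ∧ ∀ u : H, ∑ k, ∑' g, ‖⟪π g (ξ k), u⟫_ℂ‖ₑ ^ 2 = T * ‖u‖ₑ ^ 2

namespace Fra

variable (h : Fra π ξ)

include h

theorem inv_apply (g : G) (v : H) : π g⁻¹ (π g v) = v := by
  rw [← H160.mul_ap, ← map_mul, inv_mul_cancel, map_one]; rfl

theorem apply_inv (g : G) (v : H) : π g (π g⁻¹ v) = v := by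
  rw [← H160.mul_ap, ← map_mul, mul_inv_cancel, map_one]; rfl

theorem inner_left (g : G) (u v : H) : ⟪π g u, v⟫_ℂ = ⟪u, π g⁻¹ v⟫_ℂ := by
  rw [← h.adj, adjoint_inner_right]

theorem inner_right (g : G) (u v : H) : ⟪u, π g v⟫_ℂ = ⟪π g⁻¹ u, v⟫_ℂ := by
  rw [← h.adj, adjoint_inner_left]

theorem inner_map (g : G) (u v : H) : ⟪π g u, π g v⟫_ℂ = ⟪u, v⟫_ℂ := by
  rw [h.inner_left, h.inv_apply]

theorem norm_map (g : G) (v : H) : ‖π g v‖ = ‖v‖ := by
  have h1 := h.inner_map g v v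
  rw [inner_self_eq_norm_sq_to_K, inner_self_eq_norm_sq_to_K] at h1
  have h2 : ‖π g v‖ ^ 2 = ‖v‖ ^ 2 := by exact_mod_cast h1
  exact (pow_left_inj₀ (norm_nonneg _) (norm_nonneg _) two_ne_zero).mp h2

theorem ext_op {A B : H →L[ℂ] H} (h1 : ∀ k g, A (π g (ξ k)) = B (π g (ξ k))) : A = B := by
  obtain ⟨T, hT0, hT1, hT⟩ := h.par
  have h2 : adjoint (A - B) = 0 := by
    ext1 v
    rw [zero_apply]
    have h3 := hT (adjoint (A - B) v)
    have h4 : ∀ k g, ⟪π g (ξ k), adjoint (A - B) v⟫_ℂ = 0 := by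
      intro k g
      rw [adjoint_inner_right, sub_apply, h1, sub_self, inner_zero_left]
    simp only [h4] at h3
    simp only [enorm_zero, ne_eq, OfNat.ofNat_ne_zero, not_false_eq_true, zero_pow, tsum_zero,
      Finset.sum_const_zero] at h3
    have h5 := (mul_eq_zero.mp h3.symm).resolve_left hT0
    simpa using h5
  have h3 : A - B = 0 := by
    rw [← adjoint_adjoint (A - B), h2, map_zero]
  exact sub_eq_zero.mp h3

theorem ext_cmm {A B : H →L[ℂ] H} (hA : Cmm π A) (hB : Cmm π B) (h1 : ∀ k, A (ξ k) = B (ξ k)) :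
    A = B :=
  h.ext_op fun k g => by rw [hA.apply, hB.apply, h1]

theorem cmm_adjoint {A : H →L[ℂ] H} (hA : Cmm π A) : Cmm π (adjoint A) := fun g => by
  have h1 := congrArg adjoint (hA g⁻¹)
  rw [← star_eq_adjoint, ← star_eq_adjoint, star_mul, star_mul, star_eq_adjoint (π g⁻¹),
    h.adj, inv_inv, star_eq_adjoint] at h1
  exact h1.symm

end Fra

theorem Com.adj (h : Fra π ξ) {x : H →L[ℂ] H} (hx : Com π K x) : Com π K (adjoint x) := by
  intro g hg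
  have h1 := congrArg adjoint (hx g⁻¹ (K.inv_mem hg))
  rw [← star_eq_adjoint, ← star_eq_adjoint, star_mul, star_mul, star_eq_adjoint (π g⁻¹),
    h.adj, inv_inv, star_eq_adjoint] at h1
  exact h1.symm

/-- conjugation -/
theorem Com.conj {x : H →L[ℂ] H} (hx : Com π K x) (w : G) {K' : Subgroup G}
    (hK : ∀ k ∈ K', w⁻¹ * k * w ∈ K) : Com π K' (π w * x * π w⁻¹) := by
  intro k hk
  have h1 : π w⁻¹ * π k = π (w⁻¹ * k * w) * π w⁻¹ := by
    rw [← map_mul, ← map_mul]; congr 1; group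
  have h2 : π w * π (w⁻¹ * k * w) = π k * π w := by
    rw [← map_mul, ← map_mul]; congr 1; group
  calc π w * x * π w⁻¹ * π k = π w * x * (π w⁻¹ * π k) := by rw [mul_assoc]
    _ = π w * (x * π (w⁻¹ * k * w)) * π w⁻¹ := by rw [h1]; simp only [mul_assoc]
    _ = π w * π (w⁻¹ * k * w) * x * π w⁻¹ := by rw [hx _ (hK k hk)]; simp only [mul_assoc]
    _ = π k * (π w * x * π w⁻¹) := by rw [h2]; simp only [mul_assoc]

theorem enorm_map (h : Fra π ξ) (g : G) (v : H) : ‖π g v‖ₑ = ‖v‖ₑ := by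
  rw [← ofReal_norm_eq_enorm, h.norm_map, ofReal_norm_eq_enorm]

theorem rinv (h : Fra π ξ) {x : H →L[ℂ] H} (hx : Com π K x) (ζ : H) :
    RInv K (fn π ζ x) := by
  intro g k hk
  unfold fn
  rw [mul_inv_rev, map_mul, H160.mul_ap, hx.apply (K.inv_mem hk), enorm_map h]

/-- the relative Hilbert-Schmidt norm (squared) -/
noncomputable def nn (π : G →* (H →L[ℂ] H)) (K : Subgroup G) (ζ : κ → H) (x : H →L[ℂ] H) : ℝ≥0∞ :=
  ∑ k, sq K (fn π (ζ k) x)

/-- The trace property. -/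
theorem nn_adjoint (h : Fra π ξ) {x : H →L[ℂ] H} (hx : Com π K x) :
    nn π K ξ (adjoint x) = nn π K ξ x := by
  obtain ⟨T, hT0, hT1, hT⟩ := h.par
  have hT' : ∀ u : H, ∑ k, ∑' g : G, ‖⟪π g⁻¹ (ξ k), u⟫_ℂ‖ₑ ^ 2 = T * ‖u‖ₑ ^ 2 := by
    intro u
    rw [← hT u]
    exact Finset.sum_congr rfl fun k _ =>
      (Equiv.inv G).tsum_eq (fun g => ‖⟪π g (ξ k), u⟫_ℂ‖ₑ ^ 2)
  have key : ∀ y : H →L[ℂ] H, Com π K y → T * nn π K ξ y =
      ∑ k, ∑ l, sq K (fun a => ∑' b : G, ‖⟪π b⁻¹ (ξ l), y (π a⁻¹ (ξ k))⟫_ℂ‖ₑ ^ 2) := by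
    intro y hy
    unfold nn
    rw [Finset.mul_sum]
    refine Finset.sum_congr rfl fun k _ => ?_
    rw [← sq_mul_left]
    have e1 : ∀ a : G, T * fn π (ξ k) y a = ∑ l, ∑' b : G, ‖⟪π b⁻¹ (ξ l), y (π a⁻¹ (ξ k))⟫_ℂ‖ₑ ^ 2 :=
      fun a => (hT' _).symm
    rw [sq_congr (K := K) e1]
    unfold H628.sq
    exact Summable.tsum_finsetSum fun i _ => ENNReal.summable
  have h3 : T * nn π K ξ (adjoint x) = T * nn π K ξ x := by
    rw [key _ (Com.adj h hx), key _ hx, Finset.sum_comm]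
    refine Finset.sum_congr rfl fun k _ => Finset.sum_congr rfl fun l _ => ?_
    have h2 := sq_swap (K := K) (fun a b => ‖⟪π b⁻¹ (ξ l), x (π a⁻¹ (ξ k))⟫_ℂ‖ₑ ^ 2) (by
      intro a b c hc
      show ‖⟪π (b * c)⁻¹ (ξ l), x (π (a * c)⁻¹ (ξ k))⟫_ℂ‖ₑ ^ 2 = _
      rw [mul_inv_rev, mul_inv_rev, map_mul, map_mul, H160.mul_ap, H160.mul_ap,
        hx.apply (K.inv_mem hc), h.inner_map])
    rw [h2]
    refine sq_congr fun b => tsum_congr fun a => ?_
    rw [enorm_inner_symm (π a⁻¹ (ξ k)), adjoint_inner_left]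
  exact (ENNReal.mul_right_inj hT0 hT1).mp h3

theorem nn_mul_left (y x : H →L[ℂ] H) :
    nn π K ξ (y * x) ≤ ‖y‖ₑ ^ 2 * nn π K ξ x := by
  unfold nn
  rw [Finset.mul_sum]
  refine Finset.sum_le_sum fun k _ => ?_
  exact H628.nn_mul_left y x (ξ k)

theorem nn_mul_right (h : Fra π ξ) {x y : H →L[ℂ] H} (hx : Com π K x) (hy : Com π K y) :
    nn π K ξ (x * y) ≤ ‖y‖ₑ ^ 2 * nn π K ξ x := by
  rw [← nn_adjoint h (hx.mul hy), adj_mul, ← nn_adjoint h hx, ← enorm_adj y]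
  exact nn_mul_left _ _

theorem nn_isom_left {u : H →L[ℂ] H} (hu : ∀ v, ‖u v‖ₑ = ‖v‖ₑ) (x : H →L[ℂ] H) :
    nn π K ξ (u * x) = nn π K ξ x := by
  unfold nn
  exact Finset.sum_congr rfl fun k _ => H628.nn_isom_left hu x (ξ k)

theorem nn_isom_right (h : Fra π ξ) {x u : H →L[ℂ] H} (hx : Com π K x) (hu : Com π K u)
    (hu' : ∀ v, ‖adjoint u v‖ₑ = ‖v‖ₑ) : nn π K ξ (x * u) = nn π K ξ x := by
  rw [← nn_adjoint h (hx.mul hu), adj_mul, nn_isom_left hu', nn_adjoint h hx]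

theorem nn_smul (c : ℂ) (x : H →L[ℂ] H) :
    nn π K ξ (c • x) = ‖c‖ₑ ^ 2 * nn π K ξ x := by
  unfold nn
  rw [Finset.mul_sum]
  exact Finset.sum_congr rfl fun k _ => H628.nn_smul c x (ξ k)

theorem nn_zero : nn π K ξ (0 : H →L[ℂ] H) = 0 := by
  have := nn_smul (π := π) (K := K) (ξ := ξ) 0 (0 : H →L[ℂ] H)
  simpa using this

theorem nn_add_le (x y : H →L[ℂ] H) :
    nn π K ξ (x + y) ≤ 2 * nn π K ξ x + 2 * nn π K ξ y := by
  unfold nn
  rw [Finset.mul_sum, Finset.mul_sum, ← Finset.sum_add_distrib]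
  exact Finset.sum_le_sum fun k _ => H628.nn_add_le x y (ξ k)

theorem nn_neg (x : H →L[ℂ] H) : nn π K ξ (-x) = nn π K ξ x := by
  have := nn_smul (π := π) (K := K) (ξ := ξ) (-1) x
  simpa using this

theorem nn_sub {K' : Subgroup G} (hK : K' ≤ K) (h : Fra π ξ) {x : H →L[ℂ] H}
    (hx : Com π K x) :
    nn π K' ξ x = ENat.card (K ⧸ (K'.subgroupOf K)) * nn π K ξ x := by
  unfold nn
  rw [Finset.mul_sum]
  exact Finset.sum_congr rfl fun k _ => sq_const hK (rinv h hx (ξ k))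

theorem nn_eq_zero (h : Fra π ξ) {x : H →L[ℂ] H} (hx : Com π K x) (h0 : nn π K ξ x = 0) :
    x = 0 := by
  have h1 : ∀ (k : κ) (g : G), fn π (ξ k) x g = 0 := by
    intro k g
    rw [← (rinv h hx (ξ k)).out]
    have h2 := (Finset.sum_eq_zero_iff.mp h0) k (Finset.mem_univ k)
    unfold H628.sq at h2
    exact (ENNReal.tsum_eq_zero.mp h2) _
  refine h.ext_op fun k g => ?_
  have h2 := h1 k g⁻¹
  unfold fn at h2
  rw [inv_inv] at h2
  rw [zero_apply]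
  simpa using h2

end gen

end Vale.Agent.P092.H632.T
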