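import Vale.Agent.P092.H632.T.Defs
import Vale.Agent.P092.H776.Schur

/-!
The basic identity: for `x, y ∈ Qd D`,
`∑_{q ∈ Λ ⧸ D} ⟪x R(q)⁻¹ ζ, y R(q)⁻¹ η⟫ = ip x y * ⟪ζ, η⟫`.
-/

set_option linter.all false

open scoped InnerProductSpace ENNReal
open Filter Topology ContinuousLinearMap

namespace Vale.Agent.P092.H632.T

open Vale.Agent.P092.H160 (Cmm)
open Vale.Agent.P092.H628 (sq RInv fn Com esq enorm_adj adj_mul adj_adj enorm_le_op EE esum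
  ee_memℓp ee_norm col col_apply col_norm sq_swap sq_congr sq_mono sq_mul_left sq_const
  sq_translate sq_sub sq_part sq_conj sq_tsum VolBd)

variable {Γ Λ : Type} [Group Γ] [Group Λ] {H : Type} [NormedAddCommGroup H]
  [InnerProductSpace ℂ H] [CompleteSpace H] {κ κ' : Type} [Fintype κ] [Fintype κ']
  {lam : Γ →* (H →L[ℂ] H)} {R : Λ →* (H →L[ℂ] H)} {ω : κ' → H} {ξ : κ → H}
  {𝒰 : Set (Subgroup Γ)} {D : Subgroup Λ}

theorem Sys.comL (h : Sys lam R ω ξ 𝒰) (g : Γ) : Com R D (lam g) := fun k _ => h.comm g k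

theorem Sys.comRL (h : Sys lam R ω ξ 𝒰) (w : Λ) : Cmm lam (R w) := fun k => (h.comm k w).symm

theorem uni_pair {G : Type} [Group G] {π : G →* (H →L[ℂ] H)} (h : ∀ g, adjoint (π g) = π g⁻¹)
    (g : G) : adjoint (π g) * π g = 1 ∧ π g * adjoint (π g) = 1 := by
  rw [h, ← map_mul, ← map_mul, inv_mul_cancel, mul_inv_cancel, map_one]
  exact ⟨rfl, rfl⟩

/-- (K) -/
theorem K_eq (h : Sys lam R ω ξ 𝒰) {x : H →L[ℂ] H} (hx : Qd lam R ξ 𝒰 D x) (ζ : H) :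
    sq D (fn R ζ x) = nn R D ξ x * ‖ζ‖ₑ ^ 2 := by
  obtain ⟨U, hU, h1, h2, h3⟩ := hx
  obtain ⟨k₀, hk₀⟩ : ∃ k, ξ k ≠ 0 := by
    by_contra hc
    push Not at hc
    have := h.regR.nrm
    simp [hc] at this
  have hqf : ∀ ζ : H, H776.qf (fun q : Λ ⧸ D => x * R (q.out)⁻¹) ζ = sq D (fn R ζ x) := by
    intro ζ
    unfold H776.qf H628.sq fn
    refine tsum_congr fun q => ?_
    rw [H160.mul_ap, esq]
  have hfin : ∀ k, sq D (fn R (ξ k) x) ≠ ∞ := by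
    intro k
    refine ne_top_of_le_ne_top h3 ?_
    exact Finset.single_le_sum (f := fun k => sq D (fn R (ξ k) x)) (fun _ _ => zero_le)
      (Finset.mem_univ k)
  obtain ⟨c, hc0, hc⟩ := H776.schur_form (K := H) (I := Λ ⧸ D) (fun q => x * R (q.out)⁻¹)
    {u | (∃ w, u = R w) ∨ ∃ k ∈ U, u = lam k} (by
      rintro u (⟨w, rfl⟩ | ⟨k, hk, rfl⟩)
      · exact uni_pair h.regR.adj w
      · exact uni_pair h.regL.adj k) (by
      rintro u (⟨w, rfl⟩ | ⟨k, hk, rfl⟩)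
      · exact Or.inl ⟨w⁻¹, h.regR.adj w⟩
      · exact Or.inr ⟨k⁻¹, U.inv_mem hk, h.regL.adj k⟩) (by
      intro T hT
      exact h.irr U hU T (fun k hk => hT _ (Or.inr ⟨k, hk, rfl⟩)) (fun w => hT _ (Or.inl ⟨w, rfl⟩)))
    (by
      rintro u (⟨w, rfl⟩ | ⟨k, hk, rfl⟩) ζ
      · rw [hqf, hqf, ← sq_translate (rinv h.regR h2 ζ) w⁻¹]
        refine sq_congr fun g => ?_
        unfold fn
        rw [mul_inv_rev, inv_inv, map_mul, H160.mul_ap]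
      · rw [hqf, hqf]
        refine sq_congr fun g => ?_
        unfold fn
        rw [← H160.mul_ap (R _) (lam k), ← h.comm, H160.mul_ap, h1.apply hk,
          enorm_map h.regL])
    hk₀ (by rw [hqf]; exact hfin k₀)
  have hK : ∀ ζ : H, sq D (fn R ζ x) = ENNReal.ofReal c * ‖ζ‖ₑ ^ 2 := by
    intro ζ
    obtain ⟨s1, s2⟩ := hc ζ
    rw [← hqf, H776.qf_eq_ofReal s1, s2, ENNReal.ofReal_mul hc0, esq]
  have hnn : nn R D ξ x = ENNReal.ofReal c := by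
    unfold nn
    simp only [hK]
    rw [← Finset.mul_sum, h.regR.nrm, mul_one]
  rw [hnn, hK]

theorem K_le (h : Sys lam R ω ξ 𝒰) {x : H →L[ℂ] H} (hx : Qd lam R ξ 𝒰 D x) (ζ : H) :
    ∑' q : Λ ⧸ D, ‖(x * R (q.out)⁻¹) ζ‖ₑ ^ 2
      ≤ ENNReal.ofReal (Real.sqrt (nn R D ξ x).toReal ^ 2 * ‖ζ‖ ^ 2) := by
  rw [Real.sq_sqrt ENNReal.toReal_nonneg, ENNReal.ofReal_mul ENNReal.toReal_nonneg,
    ENNReal.ofReal_toReal hx.fin, ← esq, ← K_eq h hx]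
  exact le_of_eq rfl

/-- the operator `ζ ↦ (x R(q)⁻¹ ζ)_q` -/
noncomputable def AA (h : Sys lam R ω ξ 𝒰) {x : H →L[ℂ] H} (hx : Qd lam R ξ 𝒰 D x) :
    H →L[ℂ] EE (Λ ⧸ D) H :=
  col (fun q : Λ ⧸ D => x * R (q.out)⁻¹) (Real.sqrt (nn R D ξ x).toReal) (K_le h hx)

theorem AA_apply (h : Sys lam R ω ξ 𝒰) {x : H →L[ℂ] H} (hx : Qd lam R ξ 𝒰 D x) (ζ : H)
    (q : Λ ⧸ D) : AA h hx ζ q = x (R (q.out)⁻¹ ζ) := rfl

theorem AA_norm (h : Sys lam R ω ξ 𝒰) {x : H →L[ℂ] H} (hx : Qd lam R ξ 𝒰 D x) (ζ : H) :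
    ‖AA h hx ζ‖ ^ 2 = (nn R D ξ x).toReal * ‖ζ‖ ^ 2 := by
  have h1 : ‖AA h hx ζ‖ₑ ^ 2 = nn R D ξ x * ‖ζ‖ₑ ^ 2 := by
    rw [ee_norm, ← K_eq h hx]
    rfl
  have h2 := congrArg ENNReal.toReal h1
  rw [ENNReal.toReal_mul] at h2
  simpa using h2

/-- The basic identity. -/
theorem AA_inner (h : Sys lam R ω ξ 𝒰) {x y : H →L[ℂ] H} (hx : Qd lam R ξ 𝒰 D x)
    (hy : Qd lam R ξ 𝒰 D y) (ζ η : H) :
    ⟪AA h hx ζ, AA h hy η⟫_ℂ = ip R D ξ x y * ⟪ζ, η⟫_ℂ := by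
  have hIy := hy.smul Complex.I
  have h1 : ∀ ζ : H, ⟪AA h hx ζ, AA h hy ζ⟫_ℂ = ip R D ξ x y * ⟪ζ, ζ⟫_ℂ := by
    intro ζ
    have e1 : AA h (hx.add h hy) ζ = AA h hx ζ + AA h hy ζ := rfl
    have e2 : AA h (hx.sub h hy) ζ = AA h hx ζ - AA h hy ζ := rfl
    have e3 : AA h (hx.sub h hIy) ζ = AA h hx ζ - Complex.I • AA h hy ζ := rfl
    have e4 : AA h (hx.add h hIy) ζ = AA h hx ζ + Complex.I • AA h hy ζ := rfl
    rw [inner_eq_sum_norm_sq_div_four, ip_polar hx.fin hy.fin, inner_self_eq_norm_sq_to_K]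
    have f1 := AA_norm h (hx.add h hy) ζ
    have f2 := AA_norm h (hx.sub h hy) ζ
    have f3 := AA_norm h (hx.sub h hIy) ζ
    have f4 := AA_norm h (hx.add h hIy) ζ
    rw [e1] at f1
    rw [e2] at f2
    rw [e3] at f3
    rw [e4] at f4
    have g1 : ((‖AA h hx ζ + AA h hy ζ‖ : ℂ)) ^ 2 = ((nn R D ξ (x + y)).toReal : ℂ) * (‖ζ‖ : ℂ) ^ 2 := by
      rw [← Complex.ofReal_pow, f1]; push_cast; rfl
    have g2 : ((‖AA h hx ζ - AA h hy ζ‖ : ℂ)) ^ 2 = ((nn R D ξ (x - y)).toReal : ℂ) * (‖ζ‖ : ℂ) ^ 2 := by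
      rw [← Complex.ofReal_pow, f2]; push_cast; rfl
    have g3 : ((‖AA h hx ζ - Complex.I • AA h hy ζ‖ : ℂ)) ^ 2 =
        ((nn R D ξ (x - Complex.I • y)).toReal : ℂ) * (‖ζ‖ : ℂ) ^ 2 := by
      rw [← Complex.ofReal_pow, f3]; push_cast; rfl
    have g4 : ((‖AA h hx ζ + Complex.I • AA h hy ζ‖ : ℂ)) ^ 2 =
        ((nn R D ξ (x + Complex.I • y)).toReal : ℂ) * (‖ζ‖ : ℂ) ^ 2 := by
      rw [← Complex.ofReal_pow, f4]; push_cast; rfl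
    simp only [RCLike.I_to_complex, Complex.coe_algebraMap] at *
    rw [g1, g2, g3, g4]
    ring
  have h2 : adjoint (AA h hx) ∘L AA h hy - ip R D ξ x y • (1 : H →L[ℂ] H) = 0 := by
    have key : ((adjoint (AA h hx) ∘L AA h hy - ip R D ξ x y • (1 : H →L[ℂ] H) :
        H →L[ℂ] H) : H →ₗ[ℂ] H) = 0 → adjoint (AA h hx) ∘L AA h hy -
        ip R D ξ x y • (1 : H →L[ℂ] H) = 0 := by
      intro h0
      ext v
      exact congrArg (fun T : H →ₗ[ℂ] H => T v) h0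
    apply key
    rw [← inner_map_self_eq_zero]
    intro ζ
    show ⟪(adjoint (AA h hx) ∘L AA h hy - ip R D ξ x y • (1 : H →L[ℂ] H)) ζ, ζ⟫_ℂ = 0
    rw [sub_apply, inner_sub_left, sub_eq_zero, comp_apply, adjoint_inner_left,
      ContinuousLinearMap.smul_apply, inner_smul_left]
    have h3 := h1 ζ
    have h4 := congrArg (starRingEnd ℂ) h3
    rw [inner_conj_symm, map_mul, inner_conj_symm] at h4
    rw [h4]
    rfl
  rw [sub_eq_zero] at h2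
  have h3 : ⟪ζ, (adjoint (AA h hx) ∘L AA h hy) η⟫_ℂ = ⟪AA h hx ζ, AA h hy η⟫_ℂ := by
    rw [comp_apply, adjoint_inner_right]
  rw [← h3, h2, ContinuousLinearMap.smul_apply, inner_smul_right]
  rfl

theorem apply_le (h : Sys lam R ω ξ 𝒰) {x : H →L[ℂ] H} (hx : Qd lam R ξ 𝒰 D x) (ζ : H) :
    ‖x ζ‖ₑ ^ 2 ≤ nn R D ξ x * ‖ζ‖ₑ ^ 2 := by
  rw [← K_eq h hx]
  have h1 : ‖x ζ‖ₑ ^ 2 = fn R ζ x ((1 : Λ) : Λ ⧸ D).out := by
    rw [(rinv h.regR hx.comR ζ).out]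
    unfold fn
    rw [inv_one, map_one]
    rfl
  rw [h1]
  exact ENNReal.le_tsum _

theorem norm_le (h : Sys lam R ω ξ 𝒰) {x : H →L[ℂ] H} (hx : Qd lam R ξ 𝒰 D x) :
    ‖x‖ₑ ^ 2 ≤ nn R D ξ x := by
  have h1 : ‖x‖ ≤ Real.sqrt (nn R D ξ x).toReal := by
    refine x.opNorm_le_bound (Real.sqrt_nonneg _) fun ζ => ?_
    refine abs_le_of_sq_le_sq' ?_ (by positivity) |>.2
    rw [mul_pow, Real.sq_sqrt ENNReal.toReal_nonneg]
    have h2 := apply_le h hx ζ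
    have h3 := ENNReal.toReal_mono (ENNReal.mul_ne_top hx.fin (by simp)) h2
    rw [ENNReal.toReal_mul] at h3
    simpa using h3
  rw [esq, ← ENNReal.ofReal_toReal hx.fin]
  refine ENNReal.ofReal_le_ofReal ?_
  calc ‖x‖ ^ 2 ≤ (Real.sqrt (nn R D ξ x).toReal) ^ 2 := by gcongr
    _ = _ := Real.sq_sqrt ENNReal.toReal_nonneg

/-- a nonzero projection has trace at least one -/
theorem one_le_nn (h : Sys lam R ω ξ 𝒰) {x : H →L[ℂ] H} (hx : Qd lam R ξ 𝒰 D x) (h0 : x ≠ 0)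
    (hi : x * x = x) : 1 ≤ nn R D ξ x := by
  obtain ⟨ζ, hζ⟩ : ∃ ζ, x ζ ≠ 0 := by
    by_contra hc
    exact h0 (ContinuousLinearMap.ext fun ζ => by
      by_contra h1
      exact hc ⟨ζ, h1⟩)
  have h1 := apply_le h hx (x ζ)
  rw [← H160.mul_ap, hi] at h1
  have h2 : ‖x ζ‖ₑ ^ 2 ≠ 0 := by simp [hζ]
  have h3 : ‖x ζ‖ₑ ^ 2 ≠ ∞ := by simp
  have h4 : 1 * ‖x ζ‖ₑ ^ 2 ≤ nn R D ξ x * ‖x ζ‖ₑ ^ 2 := by rwa [one_mul]
  exact (ENNReal.mul_le_mul_iff_left h2 h3).mp h4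

end Vale.Agent.P092.H632.T
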