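import Vale.Agent.P092.H632.T.TorB

/-!
An operator which commutes with `lam Γ` and with `R(L)`, `L` of finite index in the ICC group `Λ`,
is a scalar, if the commutant of `lam Γ` is generated by `R`.
-/

set_option linter.all false

open scoped InnerProductSpace ENNReal Pointwise
open Filter Topology ContinuousLinearMap

namespace Vale.Agent.P092.H632.T

open Vale.Agent.P092.H160 (Cmm)
open Vale.Agent.P092.H628 (sq RInv fn Com esq enorm_adj adj_mul adj_adj enorm_le_op EE esum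
  ee_memℓp ee_norm col col_apply col_norm sq_swap sq_congr sq_mono sq_mul_left sq_const
  sq_translate sq_sub sq_part sq_conj sq_tsum VolBd)
open Vale.Agent.P092.H945 (star_comm orb_finiteIndex)

section dir

variable {H : Type} [NormedAddCommGroup H] [InnerProductSpace ℂ H] [CompleteSpace H]
  {κ : Type} [Fintype κ]

/-- the finite direct sum -/
abbrev DS (κ H : Type) [Fintype κ] [NormedAddCommGroup H] : Type := PiLp 2 (fun _ : κ => H)

/-- the diagonal operator -/
noncomputable def dg (κ : Type) [Fintype κ] (T : H →L[ℂ] H) : DS κ H →L[ℂ] DS κ H :=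
  ((PiLp.continuousLinearEquiv 2 ℂ (fun _ : κ => H)).symm : (κ → H) →L[ℂ] DS κ H) ∘L
    (ContinuousLinearMap.pi fun i => T ∘L ContinuousLinearMap.proj i) ∘L
    ((PiLp.continuousLinearEquiv 2 ℂ (fun _ : κ => H)) : DS κ H →L[ℂ] (κ → H))

/-- coordinates -/
noncomputable def pj (i : κ) : DS κ H →L[ℂ] H :=
  (ContinuousLinearMap.proj i : (κ → H) →L[ℂ] H) ∘L
    ((PiLp.continuousLinearEquiv 2 ℂ (fun _ : κ => H)) : DS κ H →L[ℂ] (κ → H))

open Classical in
/-- inclusions -/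
noncomputable def ij (i : κ) : H →L[ℂ] DS κ H :=
  ((PiLp.continuousLinearEquiv 2 ℂ (fun _ : κ => H)).symm : (κ → H) →L[ℂ] DS κ H) ∘L
    (ContinuousLinearMap.single ℂ (fun _ : κ => H) i)

theorem dg_apply (T : H →L[ℂ] H) (v : DS κ H) (i : κ) : dg κ T v i = T (v i) := rfl

theorem pj_apply (v : DS κ H) (i : κ) : pj i v = v i := rfl

theorem dg_ij (T : H →L[ℂ] H) (i : κ) (v : H) : dg κ T (ij i v) = ij i (T v) := by
  classical
  ext j
  rw [dg_apply]
  change T ((Pi.single i v : κ → H) j) = (Pi.single i (T v) : κ → H) j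
  by_cases hj : j = i
  · subst hj; simp
  · simp [hj]

theorem sum_ij (v : DS κ H) : ∑ j, ij j (v j) = v := by
  classical
  apply (PiLp.continuousLinearEquiv 2 ℂ (fun _ : κ => H)).injective
  rw [map_sum]
  have h1 : ∀ j, (PiLp.continuousLinearEquiv 2 ℂ (fun _ : κ => H)) (ij j (v j)) =
      Pi.single j (v j) := fun j => rfl
  simp only [h1]
  exact Finset.univ_sum_single _

theorem adjoint_dg (T : H →L[ℂ] H) : adjoint (dg κ T) = dg κ (adjoint T) := by
  symm
  rw [ContinuousLinearMap.eq_adjoint_iff]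
  intro x y
  rw [PiLp.inner_apply, PiLp.inner_apply]
  refine Finset.sum_congr rfl fun i _ => ?_
  rw [dg_apply, dg_apply, adjoint_inner_left]

/-- An operator which commutes with the entries commutes with the matrix. -/
theorem dg_comm {y : H →L[ℂ] H} {P : DS κ H →L[ℂ] DS κ H}
    (h : ∀ i j, y * (pj i ∘L P ∘L ij j) = (pj i ∘L P ∘L ij j) * y) :
    dg κ y * P = P * dg κ y := by
  ext1 v
  have h1 : ∀ j, dg κ y (P (ij j (v j))) = P (dg κ y (ij j (v j))) := by
    intro j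
    ext i
    rw [dg_ij, dg_apply]
    exact congrArg (fun T : H →L[ℂ] H => T (v j)) (h i j)
  have h2 : dg κ y (P v) = P (dg κ y v) := by
    conv_lhs => rw [← sum_ij v, map_sum, map_sum]
    conv_rhs => rw [← sum_ij v, map_sum, map_sum]
    exact Finset.sum_congr rfl fun j _ => h1 j
  exact h2

end dir

section main

variable {Γ Λ : Type} [Group Γ] [Group Λ] {H : Type} [NormedAddCommGroup H]
  [InnerProductSpace ℂ H] [CompleteSpace H] {κ κ' : Type} [Fintype κ] [Fintype κ']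
  {lam : Γ →* (H →L[ℂ] H)} {R : Λ →* (H →L[ℂ] H)} {ω : κ' → H} {ξ : κ → H}
  {𝒰 : Set (Subgroup Γ)} {x y : H →L[ℂ] H}

/-- `lam(Γ)' ⊆ R(Λ)''` -/
def Bic (lam : Γ →* (H →L[ℂ] H)) (R : Λ →* (H →L[ℂ] H)) : Prop :=
  ∀ x y : H →L[ℂ] H, Cmm lam x → Cmm R y → x * y = y * x

/-- the inner product of the commutant -/
noncomputable def tr2 (ω : κ' → H) (x y : H →L[ℂ] H) : ℂ := ∑ k, ⟪x (ω k), y (ω k)⟫_ℂ

theorem nn_top (h : Fra lam ω) (hy : Cmm lam y) : nn lam ⊤ ω y = ∑ k, ‖y (ω k)‖ₑ ^ 2 := by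
  unfold nn
  refine Finset.sum_congr rfl fun k _ => ?_
  have h1 : ∀ g : Γ, fn lam (ω k) y g = ‖y (ω k)‖ₑ ^ 2 := by
    intro g
    unfold fn
    rw [hy.apply, enorm_map h]
  rw [sq_congr h1]
  unfold H628.sq
  haveI : Subsingleton (Γ ⧸ (⊤ : Subgroup Γ)) := QuotientGroup.subsingleton_quotient_top
  haveI : Unique (Γ ⧸ (⊤ : Subgroup Γ)) := uniqueOfSubsingleton ((1 : Γ) : Γ ⧸ (⊤ : Subgroup Γ))
  rw [tsum_eq_single ((1 : Γ) : Γ ⧸ (⊤ : Subgroup Γ)) (fun b hb => absurd
    (Subsingleton.elim _ _) hb)]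

theorem nn_top_ne (h : Fra lam ω) (hy : Cmm lam y) : nn lam ⊤ ω y ≠ ∞ := by
  rw [nn_top h hy]
  exact ENNReal.sum_ne_top.mpr fun k _ => by simp

theorem ip_top (h : Fra lam ω) (hx : Cmm lam x) (hy : Cmm lam y) :
    ip lam ⊤ ω x y = tr2 ω x y := by
  unfold ip tr2
  haveI : Subsingleton (Γ ⧸ (⊤ : Subgroup Γ)) := QuotientGroup.subsingleton_quotient_top
  haveI : Unique (Γ ⧸ (⊤ : Subgroup Γ)) := uniqueOfSubsingleton ((1 : Γ) : Γ ⧸ (⊤ : Subgroup Γ))
  rw [tsum_fintype, Fintype.sum_prod_type]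
  refine Finset.sum_congr rfl fun k _ => ?_
  rw [Fintype.sum_unique]
  rw [hx.apply, hy.apply, h.inner_map]

theorem tr2_adj (h : Fra lam ω) (hx : Cmm lam x) (hy : Cmm lam y) :
    tr2 ω x y = tr2 ω (adjoint y) (adjoint x) := by
  rw [← ip_top h hx hy, ← ip_top h (h.cmm_adjoint hy) (h.cmm_adjoint hx)]
  exact ip_adjoint h (fun g _ => hx g) (fun g _ => hy g) (nn_top_ne h hx) (nn_top_ne h hy)

theorem tr2_left (h : Sys lam R ω ξ 𝒰) (w : Λ) : tr2 ω (R w * x) (R w * y) = tr2 ω x y := by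
  unfold tr2
  exact Finset.sum_congr rfl fun k _ => h.regR.inner_map _ _ _

theorem tr2_right (h : Sys lam R ω ξ 𝒰) (hx : Cmm lam x) (hy : Cmm lam y) (w : Λ) :
    tr2 ω (x * R w) (y * R w) = tr2 ω x y := by
  rw [tr2_adj h.regL (hx.mul (h.comRL w)) (hy.mul (h.comRL w)), adj_mul, adj_mul, h.regR.adj,
    tr2_left h, ← tr2_adj h.regL hx hy]

theorem tr2_conj (h : Sys lam R ω ξ 𝒰) (hx : Cmm lam x) {L : Subgroup Λ} (hx' : Com R L x)
    {k : Λ} (hk : k ∈ L) (w : Λ) : tr2 ω (R (k * w * k⁻¹)) x = tr2 ω (R w) x := by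
  have e1 : x = R k * x * R k⁻¹ := by
    rw [← hx' k hk, mul_assoc, ← map_mul, mul_inv_cancel, map_one, mul_one]
  have e2 : R (k * w * k⁻¹) = R k * R w * R k⁻¹ := by rw [map_mul, map_mul]
  calc tr2 ω (R (k * w * k⁻¹)) x = tr2 ω (R k * R w * R k⁻¹) (R k * x * R k⁻¹) := by
        rw [← e1, e2]
    _ = tr2 ω (R k * R w) (R k * x) :=
        tr2_right h ((h.comRL k).mul (h.comRL w)) ((h.comRL k).mul hx) _
    _ = _ := tr2_left h k

theorem tr2_tendsto (h : Sys lam R ω ξ 𝒰) (x : H →L[ℂ] H) :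
    Tendsto (fun w => tr2 ω (R w) x) cofinite (𝓝 0) := by
  have h1 : ∀ k, Tendsto (fun w => ⟪R w (ω k), x (ω k)⟫_ℂ) cofinite (𝓝 0) := by
    intro k
    have h2 := coeff0 h.regR (x (ω k)) (ω k)
    rw [tendsto_zero_iff_norm_tendsto_zero] at h2 ⊢
    refine h2.congr fun w => ?_
    rw [norm_inner_symm]
  have h2 := tendsto_finsetSum (Finset.univ : Finset κ') fun k _ => h1 k
  simpa [tr2] using h2

theorem tr2_zero (h : Sys lam R ω ξ 𝒰)
    (hΛ : ∀ g : Λ, g ≠ 1 → Set.Infinite {y : Λ | ∃ k : Λ, y = k * g * k⁻¹})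
    {L : Subgroup Λ} (hL : L.index ≠ 0) (hx : Cmm lam x) (hx' : Com R L x) {w : Λ} (hw : w ≠ 1) :
    tr2 ω (R w) x = 0 := by
  by_contra hne
  have hpos : 0 < ‖tr2 ω (R w) x‖ := norm_pos_iff.mpr hne
  have h1 := (Metric.tendsto_nhds.mp (tr2_tendsto (ω := ω) h x)) _ hpos
  rw [Filter.eventually_cofinite] at h1
  refine (orb_finiteIndex hΛ L hL w hw) (h1.subset ?_)
  rintro _ ⟨k, hk, rfl⟩
  simp only [Set.mem_setOf_eq, dist_zero_right, not_lt]
  rw [tr2_conj h hx hx' hk]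

/-- An operator of the commutant which is orthogonal to all `R w` is zero. -/
theorem eq_zero_of_tr2 (h : Sys lam R ω ξ 𝒰) (hb : Bic lam R) (hy : Cmm lam y)
    (h0 : ∀ w, tr2 ω (R w) y = 0) : y = 0 := by
  set Ω : DS κ' H := WithLp.toLp 2 ω with hΩ
  have hΩi : ∀ k, Ω k = ω k := fun k => rfl
  set K : Submodule ℂ (DS κ' H) :=
    (Submodule.span ℂ {v | ∃ w : Λ, v = dg κ' (R w) Ω}).topologicalClosure with hK
  haveI : CompleteSpace K := (Submodule.isClosed_topologicalClosure _).completeSpace_coe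
  have hmap : ∀ w : Λ, ∀ v ∈ K, dg κ' (R w) v ∈ K := by
    intro w
    have h1 : K ≤ K.comap (dg κ' (R w) : DS κ' H →ₗ[ℂ] DS κ' H) := by
      refine Submodule.topologicalClosure_minimal _ ?_ ?_
      · rw [Submodule.span_le]
        rintro _ ⟨w', rfl⟩
        have h2 : dg κ' (R w) (dg κ' (R w') Ω) = dg κ' (R (w * w')) Ω := by
          ext i
          rw [dg_apply, dg_apply, dg_apply, map_mul, H160.mul_ap]
        change dg κ' (R w) (dg κ' (R w') Ω) ∈ K
        rw [h2]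
        exact Submodule.le_topologicalClosure _ (Submodule.subset_span ⟨_, rfl⟩)
      · exact (Submodule.isClosed_topologicalClosure _).preimage (dg κ' (R w)).continuous
    exact fun v hv => h1 hv
  have hcom : ∀ w : Λ, K.starProjection * dg κ' (R w) = dg κ' (R w) * K.starProjection := by
    intro w
    refine star_comm K (V' := dg κ' (R w⁻¹)) ?_ (hmap w) (hmap w⁻¹)
    rw [adjoint_dg, h.regR.adj]
  have hent : ∀ i j, Cmm R (pj i ∘L K.starProjection ∘L ij j) := by
    intro i j w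
    ext1 v
    have h1 := congrArg (fun T : DS κ' H →L[ℂ] DS κ' H => T (ij j v)) (hcom w)
    have h2 : K.starProjection (dg κ' (R w) (ij j v)) = dg κ' (R w) (K.starProjection (ij j v)) := h1
    rw [dg_ij] at h2
    exact congrArg (fun u : DS κ' H => u i) h2
  have hyP : dg κ' y * K.starProjection = K.starProjection * dg κ' y :=
    dg_comm fun i j => hb _ _ hy (hent i j)
  have h1 : K.starProjection (dg κ' y Ω) = 0 := by
    rw [Submodule.starProjection_apply_eq_zero_iff]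
    rw [hK, Submodule.orthogonal_closure]
    rw [Submodule.mem_orthogonal]
    intro u hu
    induction hu using Submodule.span_induction with
    | mem w hw =>
      obtain ⟨w, rfl⟩ := hw
      rw [PiLp.inner_apply]
      exact h0 w
    | zero => exact inner_zero_left _
    | add a b _ _ ha hb => rw [inner_add_left, ha, hb, add_zero]
    | smul c a _ ha => rw [inner_smul_left, ha, mul_zero]
  have h2 : K.starProjection Ω = Ω := by
    refine Submodule.starProjection_eq_self_iff.mpr ?_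
    refine Submodule.le_topologicalClosure _ (Submodule.subset_span ⟨1, ?_⟩)
    rw [map_one]
    ext i
    rfl
  have h3 : dg κ' y Ω = 0 := by
    have h4 := congrArg (fun T : DS κ' H →L[ℂ] DS κ' H => T Ω) hyP
    have h5 : dg κ' y (K.starProjection Ω) = K.starProjection (dg κ' y Ω) := h4
    rw [h2, h1] at h5
    exact h5
  refine h.regL.ext_cmm hy (fun g => by simp) fun k => ?_
  have h4 := congrArg (fun u : DS κ' H => u k) h3
  exact h4

theorem tr2_one_one (h : Sys lam R ω ξ 𝒰) : tr2 ω (1 : H →L[ℂ] H) 1 = 1 := by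
  have h1 : tr2 ω (1 : H →L[ℂ] H) 1 = ((∑ k, ‖ω k‖ ^ 2 : ℝ) : ℂ) := by
    unfold tr2
    push_cast
    refine Finset.sum_congr rfl fun k _ => ?_
    change ⟪ω k, ω k⟫_ℂ = _
    rw [inner_self_eq_norm_sq_to_K]
    rfl
  have h2 : ENNReal.ofReal (∑ k, ‖ω k‖ ^ 2) = 1 := by
    rw [ENNReal.ofReal_sum_of_nonneg fun _ _ => by positivity, ← h.regL.nrm]
    exact Finset.sum_congr rfl fun k _ => (esq _).symm
  have h3 : ∑ k, ‖ω k‖ ^ 2 = (1 : ℝ) := by
    rwa [← ENNReal.ofReal_one, ENNReal.ofReal_eq_ofReal_iff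
      (Finset.sum_nonneg fun _ _ => by positivity) zero_le_one] at h2
  rw [h1, h3, Complex.ofReal_one]

/-- Commutation with `lam Γ` and with `R` of a finite index subgroup. -/
theorem scalar_of (h : Sys lam R ω ξ 𝒰) (hb : Bic lam R)
    (hΛ : ∀ g : Λ, g ≠ 1 → Set.Infinite {y : Λ | ∃ k : Λ, y = k * g * k⁻¹})
    {L : Subgroup Λ} (hL : L.index ≠ 0) (hx : Cmm lam x) (hx' : Com R L x) :
    ∃ c : ℂ, x = c • (1 : H →L[ℂ] H) := by
  refine ⟨tr2 ω 1 x, ?_⟩
  rw [← sub_eq_zero]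
  set c := tr2 ω 1 x with hc
  have h1 : ∀ w, tr2 ω (R w) (x - c • (1 : H →L[ℂ] H)) =
      tr2 ω (R w) x - c * tr2 ω (R w) 1 := by
    intro w
    unfold tr2
    rw [Finset.mul_sum, ← Finset.sum_sub_distrib]
    refine Finset.sum_congr rfl fun k _ => ?_
    rw [sub_apply, inner_sub_right, ContinuousLinearMap.smul_apply, inner_smul_right]
  refine eq_zero_of_tr2 h hb (hx.sub (H160.Cmm.smul _ H160.Cmm.one)) fun w => ?_
  rw [h1]
  by_cases hw : w = 1
  · rw [hw, map_one, tr2_one_one h, mul_one, sub_self]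
  · rw [tr2_zero h hΛ hL hx hx' hw, tr2_zero h hΛ hL H160.Cmm.one Com.one hw, mul_zero, sub_zero]

end main

end Vale.Agent.P092.H632.T
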