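import Vale.Agent.P092.H632.T.TorD
import Vale.Agent.P092.H945.TorE

/-!
Torsion theorem: the end.
-/

set_option linter.all false

open scoped InnerProductSpace ENNReal Pointwise
open Filter Topology ContinuousLinearMap

namespace Vale.Agent.P092.H632.T

open Vale.Agent.P092.H160 (Cmm)
open Vale.Agent.P092.H628 (sq RInv fn Com esq enorm_adj adj_mul adj_adj enorm_le_op EE esum
  ee_memℓp ee_norm col col_apply col_norm sq_swap sq_congr sq_mono sq_mul_left sq_const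
  sq_translate sq_sub sq_part sq_conj sq_tsum VolBd)
open Vale.Agent.P092.H945 (comm_of_norm proj_enorm_le inner_proj cjg mem_cjg star_comm mul_cancel_map inv_cancel_map
  cjg_top index_cjg Cmr mem_Cmr orb_finiteIndex relIndex_unit card_quot card_ne index_centralizer)

variable {Γ Λ : Type} [Group Γ] [Group Λ] {H : Type} [NormedAddCommGroup H]
  [InnerProductSpace ℂ H] [CompleteSpace H] {κ κ' : Type} [Fintype κ] [Fintype κ']

variable {lam : Γ →* (H →L[ℂ] H)} {R : Λ →* (H →L[ℂ] H)} {ω : κ' → H} {ξ : κ → H} {𝒰 : Set (Subgroup Γ)}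
  {Θ₀ : Subgroup Γ} {C D : Subgroup Λ} {e f x y p : H →L[ℂ] H}

theorem ex_le (h : Sys lam R ω ξ 𝒰) (hp : adjoint p = p) (hpp : p * p = p) (hpl : Cmm lam p)
    (hpR : Com R C p) {e₀ : H →L[ℂ] H} (he₀ : Mn lam R ξ 𝒰 C e₀) (hne : e₀ * p ≠ 0) :
    ∃ e, Mn lam R ξ 𝒰 C e ∧ p * e = e := by
  set x := e₀ * p with hx
  have hxQ : Qd lam R ξ 𝒰 C x := he₀.mem.mulR h hpl hpR
  set y0 := adjoint x * x with hy0
  have hyQ : Qd lam R ξ 𝒰 C y0 := (hxQ.adj h).mul h hxQ
  have hy0ne : y0 ≠ 0 := adj_mul_self_ne hne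
  have hy0a : adjoint y0 = y0 := by rw [hy0, adj_mul, adj_adj]
  have hpy : p * y0 = y0 := by
    rw [hy0, hx, adj_mul, hp, he₀.adj]
    simp only [← mul_assoc]
    rw [hpp]
  have hn : ‖y0‖ ≠ 0 := norm_ne_zero_iff.mpr hy0ne
  set c : ℂ := ((‖y0‖⁻¹ : ℝ) : ℂ) with hc
  have hb := fun z hz => norm_le h (x := z) (D := C) hz
  obtain ⟨g, hg1, hg2, hg3, hg4, hg5, hg6⟩ := (qalg h hb).exists_lim (y := c • y0)
    (hyQ.smul c) (by
      rw [map_smulₛₗ, hy0a, hc, Complex.conj_ofReal]) (by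
      rw [norm_smul, hc, Complex.norm_real, norm_inv, norm_norm, inv_mul_cancel₀ hn])
  obtain ⟨e, he, hge⟩ := exists_mn_le h hb hg1 hg2 hg3 hg4
  refine ⟨e, he, ?_⟩
  have h1 : p * g = g := hg6 p (by rw [mul_smul_comm, hpy])
  rw [← hge, ← mul_assoc, h1]

/-- The projection on the `F`-invariant vectors. -/
noncomputable def pF (R : Λ →* (H →L[ℂ] H)) (F : Subgroup Λ) [Fintype F] : H →L[ℂ] H :=
  ((Fintype.card F : ℂ)⁻¹) • ∑ f : F, R (f : Λ)

section pF

variable {F : Subgroup Λ} [Fintype F]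

theorem pF_mul (a : F) : R (a : Λ) * pF R F = pF R F := by
  unfold pF
  rw [mul_smul_comm, Finset.mul_sum]
  congr 1
  rw [← Equiv.sum_comp (Equiv.mulLeft a) (fun f : F => R (f : Λ))]
  refine Finset.sum_congr rfl fun f _ => ?_
  rw [← map_mul]
  rfl

theorem pF_idem : pF R F * pF R F = pF R F := by
  conv_lhs => enter [1]; unfold pF
  rw [smul_mul_assoc, Finset.sum_mul]
  simp only [pF_mul]
  rw [Finset.sum_const, Finset.card_univ, ← Nat.cast_smul_eq_nsmul ℂ, smul_smul,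
    inv_mul_cancel₀ card_ne, one_smul]

theorem pF_adj (h : Sys lam R ω ξ 𝒰) : adjoint (pF R F) = pF R F := by
  unfold pF
  rw [map_smulₛₗ, map_sum]
  congr 1
  · simp
  · rw [← Equiv.sum_comp (Equiv.inv F) (fun f : F => R (f : Λ))]
    refine Finset.sum_congr rfl fun f _ => ?_
    rw [h.regR.adj]
    rfl

theorem pF_cmm (h : Sys lam R ω ξ 𝒰) : Cmm lam (pF R F) := by
  intro g
  unfold pF
  rw [smul_mul_assoc, mul_smul_comm, Finset.sum_mul, Finset.mul_sum]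
  congr 1
  exact Finset.sum_congr rfl fun f _ => h.comRL _ g

theorem pF_com (hF : ∀ c ∈ C, ∀ f ∈ F, c * f * c⁻¹ ∈ F) : Com R C (pF R F) := by
  intro c hc
  unfold pF
  rw [smul_mul_assoc, mul_smul_comm, Finset.sum_mul, Finset.mul_sum]
  congr 1
  let φ : F ≃ F :=
    { toFun := fun f => ⟨c * f * c⁻¹, hF c hc f f.2⟩
      invFun := fun f => ⟨c⁻¹ * f * c, by
        have := hF c⁻¹ (C.inv_mem hc) f f.2
        rwa [inv_inv] at this⟩
      left_inv := fun f => by ext; simp only; group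
      right_inv := fun f => by ext; simp only; group }
  rw [← Equiv.sum_comp φ (fun f : F => R (f : Λ) * R c)]
  refine Finset.sum_congr rfl fun f _ => ?_
  change R (c * f * c⁻¹) * R c = R c * R f
  rw [← map_mul, ← map_mul]
  congr 1
  group

theorem pF_norm (h : Sys lam R ω ξ 𝒰)
    (hΛ : ∀ g : Λ, g ≠ 1 → Set.Infinite {y : Λ | ∃ k : Λ, y = k * g * k⁻¹}) :
    ∑ k, ‖pF R F (ω k)‖ₑ ^ 2 = (Fintype.card F : ℝ≥0∞)⁻¹ := by
  classical
  have h1 : ((∑ k, ‖pF R F (ω k)‖ ^ 2 : ℝ) : ℂ) = (Fintype.card F : ℂ)⁻¹ := by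
    have e1 : ((∑ k, ‖pF R F (ω k)‖ ^ 2 : ℝ) : ℂ) = ∑ k, ⟪ω k, pF R F (ω k)⟫_ℂ := by
      rw [Complex.ofReal_sum]
      exact Finset.sum_congr rfl fun k _ => (inner_proj (pF_adj h) pF_idem _).symm
    have h2 : ∀ k, ⟪ω k, pF R F (ω k)⟫_ℂ =
        (Fintype.card F : ℂ)⁻¹ * ∑ f : F, ⟪ω k, R (f : Λ) (ω k)⟫_ℂ := by
      intro k
      unfold pF
      rw [smul_apply, sum_apply, inner_smul_right, inner_sum]
    rw [e1]
    simp only [h2]
    rw [← Finset.mul_sum, Finset.sum_comm, Finset.sum_eq_single (1 : F)]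
    · rw [Subgroup.coe_one, map_one]
      have h3 := tr2_one_one h
      unfold tr2 at h3
      have h4 : ∑ k, ⟪ω k, (1 : H →L[ℂ] H) (ω k)⟫_ℂ = 1 := h3
      rw [h4, mul_one]
    · intro f _ hf
      have hne : (f : Λ)⁻¹ ≠ 1 := by
        intro h0
        exact hf (Subtype.ext (inv_eq_one.mp h0))
      have h3 := tr2_zero (x := 1) h hΛ (L := ⊤) (by simp) H160.Cmm.one Com.one hne
      unfold tr2 at h3
      rw [← h3]
      refine Finset.sum_congr rfl fun k _ => ?_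
      rw [h.regR.inner_left, inv_inv]
      rfl
    · intro h0
      exact absurd (Finset.mem_univ _) h0
  have h3 : ∑ k, ‖pF R F (ω k)‖ ^ 2 = (Fintype.card F : ℝ)⁻¹ := by
    have h4 : ((∑ k, ‖pF R F (ω k)‖ ^ 2 : ℝ) : ℂ) = (((Fintype.card F : ℝ)⁻¹ : ℝ) : ℂ) := by
      rw [h1]; push_cast; rfl
    exact_mod_cast h4
  have hpos : (0 : ℝ) < Fintype.card F := by exact_mod_cast Fintype.card_pos (α := F)
  have h5 : ∑ k, ‖pF R F (ω k)‖ₑ ^ 2 = ENNReal.ofReal (∑ k, ‖pF R F (ω k)‖ ^ 2) := by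
    rw [ENNReal.ofReal_sum_of_nonneg fun _ _ => by positivity]
    exact Finset.sum_congr rfl fun k _ => esq _
  rw [h5, h3, ENNReal.ofReal_inv_of_pos hpos, ENNReal.ofReal_natCast]

theorem pF_ne (h : Sys lam R ω ξ 𝒰)
    (hΛ : ∀ g : Λ, g ≠ 1 → Set.Infinite {y : Λ | ∃ k : Λ, y = k * g * k⁻¹}) : pF R F ≠ 0 := by
  intro h0
  have h1 := pF_norm (F := F) h hΛ
  rw [h0] at h1
  simp only [zero_apply, enorm_zero, ne_eq, OfNat.ofNat_ne_zero, not_false_eq_true, zero_pow,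
    Finset.sum_const_zero] at h1
  exact (ENNReal.inv_ne_zero.mpr (ENNReal.natCast_ne_top _)) h1.symm

end pF

/-- Finite subgroups normalised by `C` have bounded cardinality. -/
theorem cardF_le (h : Sys lam R ω ξ 𝒰) (hV : VolBd 𝒰 Θ₀) (hb : Bic lam R)
    (hΛ : ∀ g : Λ, g ≠ 1 → Set.Infinite {y : Λ | ∃ k : Λ, y = k * g * k⁻¹})
    (hC : C.index = 0) (he : Mn lam R ξ 𝒰 C e) (F : Subgroup Λ) [Fintype F]
    (hF : ∀ c ∈ C, ∀ f ∈ F, c * f * c⁻¹ ∈ F) :
    (Fintype.card F : ℝ≥0∞) * rat lam R ω ξ 𝒰 Θ₀ C e ≤ 1 := by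
  obtain ⟨e₀, he₀, hne⟩ : ∃ e₀, Mn lam R ξ 𝒰 C e₀ ∧ e₀ * pF R F ≠ 0 := by
    by_contra hcon
    push Not at hcon
    have h1 : pF R F * PP lam R ξ 𝒰 C = 0 := by
      refine kill fun e₀ he₀ => ?_
      have := congrArg adjoint (hcon e₀ he₀)
      rwa [adj_mul, pF_adj h, he₀.adj, map_zero] at this
    rw [PP_eq_one h hV hb hΛ hC he, mul_one] at h1
    exact pF_ne h hΛ h1
  obtain ⟨e₁, he₁, hpe⟩ := ex_le h (pF_adj h) pF_idem (pF_cmm h) (pF_com hF) he₀ hne
  have h1 := rat_le h hV he₁ hC (pF_adj h) (pF_cmm h) hpe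
  rw [rat_const h hV hb hΛ hC he₁ he, pF_norm h hΛ] at h1
  calc (Fintype.card F : ℝ≥0∞) * rat lam R ω ξ 𝒰 Θ₀ C e
      ≤ (Fintype.card F : ℝ≥0∞) * (Fintype.card F : ℝ≥0∞)⁻¹ := by gcongr
    _ ≤ 1 := ENNReal.mul_inv_le_one _

/-- **Theorem T**: there is no nonzero element of finite trace for the centraliser of `s ≠ 1`. -/
theorem tor (h : Sys lam R ω ξ 𝒰) (hV : VolBd 𝒰 Θ₀) (hb : Bic lam R)
    (hΛ : ∀ g : Λ, g ≠ 1 → Set.Infinite {y : Λ | ∃ k : Λ, y = k * g * k⁻¹})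
    {s : Λ} (hs : s ≠ 1) {X : H →L[ℂ] H}
    (hX : Qd lam R ξ 𝒰 (Subgroup.centralizer ({s} : Set Λ)) X) : X = 0 := by
  classical
  by_contra hX0
  set C := Subgroup.centralizer ({s} : Set Λ) with hCdef
  have hC : C.index = 0 := index_centralizer hΛ hs
  obtain ⟨e, he, _⟩ := ex_mn h hX hX0
  obtain ⟨n, hn⟩ := ENNReal.exists_nat_mul_gt (rat_ne_zero h hV he) ENNReal.one_ne_top
  obtain ⟨t, ht, htn⟩ := (hΛ s hs).exists_subset_card_eq n
  -- finite index subgroup centralising `t`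
  set C1 : Subgroup Λ := ⨅ a : t, Subgroup.centralizer ({(a : Λ)} : Set Λ) with hC1
  have hC1i : C1.relIndex C ≠ 0 := by
    refine Subgroup.relIndex_iInf_ne_zero fun a => ?_
    obtain ⟨k, hk⟩ := ht a.2
    have h1 : Subgroup.centralizer ({(a : Λ)} : Set Λ) = cjg k C := by
      ext c
      rw [mem_cjg, hCdef, Subgroup.mem_centralizer_singleton_iff,
        Subgroup.mem_centralizer_singleton_iff, hk]
      constructor
      · intro h1
        have h2 : k⁻¹ * (c * (k * s * k⁻¹)) * k = k⁻¹ * (k * s * k⁻¹ * c) * k := by rw [h1]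
        calc k⁻¹ * c * k * s = k⁻¹ * (c * (k * s * k⁻¹)) * k := by group
          _ = k⁻¹ * (k * s * k⁻¹ * c) * k := h2
          _ = s * (k⁻¹ * c * k) := by group
      · intro h1
        calc c * (k * s * k⁻¹) = k * (k⁻¹ * c * k * s) * k⁻¹ := by group
          _ = k * (s * (k⁻¹ * c * k)) * k⁻¹ := by rw [h1]
          _ = k * s * k⁻¹ * c := by group
    rw [h1]
    exact (mem_Cmr.mp (Cmr_eq_top h hV hb hΛ hC he k)).1
  haveI : (C1.subgroupOf C).FiniteIndex := ⟨hC1i⟩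
  set N : Subgroup C := (C1.subgroupOf C).normalCore with hN
  haveI : N.FiniteIndex := Subgroup.finiteIndex_normalCore _
  haveI hNn : N.Normal := Subgroup.normalCore_normal _
  set C2 : Subgroup Λ := N.map C.subtype with hC2
  have hC2C : C2 ≤ C := by
    rintro _ ⟨c, _, rfl⟩
    exact c.2
  have hC2sub : C2.subgroupOf C = N := by
    rw [hC2]
    exact Subgroup.comap_map_eq_self_of_injective C.subtype_injective N
  have hQ2 : Qd lam R ξ 𝒰 C2 e := by
    refine he.mem.sub_group h hC2C ?_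
    rw [hC2sub]
    haveI : Finite (C ⧸ N) := Subgroup.finite_quotient_of_finiteIndex
    rw [ENat.card_eq_coe_natCard]
    exact ENat.coe_ne_top _
  obtain ⟨e2, he2, _⟩ := ex_mn h hQ2 he.ne
  set F : Subgroup Λ := Subgroup.centralizer (C2 : Set Λ) with hFdef
  have hFmem : ∀ b, b ∈ F ↔ ∀ d ∈ C2, b * d = d * b := by
    intro b
    rw [hFdef, Subgroup.mem_centralizer_iff]
    exact ⟨fun hb d hd => (hb d hd).symm, fun hb d hd => (hb d hd).symm⟩
  haveI : Finite F := he2.finite_centralizer h F fun b hb d hd => (hFmem b).mp hb d hd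
  haveI : Fintype F := Fintype.ofFinite F
  have hFC : ∀ c ∈ C, ∀ f ∈ F, c * f * c⁻¹ ∈ F := by
    intro c hc f hf
    rw [hFmem] at hf ⊢
    intro d hd
    have hd' : c⁻¹ * d * c ∈ C2 := by
      obtain ⟨d0, hd0, rfl⟩ := hd
      refine ⟨⟨c, hc⟩⁻¹ * d0 * ⟨c, hc⟩, ?_, rfl⟩
      have := hNn.conj_mem d0 hd0 (⟨c, hc⟩⁻¹ : C)
      rwa [inv_inv] at this
    have h1 := hf _ hd'
    calc c * f * c⁻¹ * d = c * (f * (c⁻¹ * d * c)) * c⁻¹ := by group
      _ = c * (c⁻¹ * d * c * f) * c⁻¹ := by rw [h1]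
      _ = d * (c * f * c⁻¹) := by group
  have htF : n ≤ Fintype.card F := by
    rw [← htn]
    have hinj : ∀ a ∈ t, a ∈ F := by
      intro a ha
      rw [hFmem]
      rintro _ ⟨d0, hd0, rfl⟩
      have h1 : (d0 : Λ) ∈ C1 := by
        have := Subgroup.normalCore_le _ hd0
        rwa [Subgroup.mem_subgroupOf] at this
      rw [hC1, Subgroup.mem_iInf] at h1
      have h2 := Subgroup.mem_centralizer_singleton_iff.mp (h1 ⟨a, ha⟩)
      exact h2.symm
    have : Fintype.card t ≤ Fintype.card F :=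
      Fintype.card_le_of_injective (fun a : t => (⟨a, hinj a a.2⟩ : F)) fun a b hab => by
        have := congrArg Subtype.val hab
        exact Subtype.ext this
    simpa using this
  have h1 := cardF_le h hV hb hΛ hC he F hFC
  refine absurd (lt_of_lt_of_le hn ?_) (lt_irrefl _)
  refine le_trans ?_ h1
  gcongr

end Vale.Agent.P092.H632.T
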