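import Vale.Agent.P092.H632.T.HS
import Vale.Agent.P092.H628.TorVec

/-!
The vector of an operator with finite relative Hilbert-Schmidt norm, for frames.
-/

set_option linter.all false

open scoped InnerProductSpace ENNReal
open Filter Topology ContinuousLinearMap

namespace Vale.Agent.P092.H632.T

open Vale.Agent.P092.H160 (Cmm)
open Vale.Agent.P092.H628 (sq RInv fn Com esq enorm_adj adj_mul adj_adj enorm_le_op EE esum
  ee_memℓp ee_norm col col_apply col_norm)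

section gen

variable {G : Type} [Group G] {H : Type} [NormedAddCommGroup H] [InnerProductSpace ℂ H]
    [CompleteSpace H] {κ : Type} [Fintype κ] {π : G →* (H →L[ℂ] H)} {ξ : κ → H} {K : Subgroup G}

theorem nn_eq_tsum (x : H →L[ℂ] H) :
    nn π K ξ x = ∑' p : κ × (G ⧸ K), ‖x (π (p.2.out)⁻¹ (ξ p.1))‖ₑ ^ 2 := by
  rw [ENNReal.tsum_prod', tsum_fintype]
  rfl

/-- the vector of an operator -/
noncomputable def vec (x : H →L[ℂ] H) (hx : nn π K ξ x ≠ ∞) : EE (κ × (G ⧸ K)) H :=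
  ⟨fun p => x (π (p.2.out)⁻¹ (ξ p.1)), ee_memℓp (by rwa [← nn_eq_tsum])⟩

theorem vec_apply (x : H →L[ℂ] H) (hx : nn π K ξ x ≠ ∞) (p : κ × (G ⧸ K)) :
    vec x hx p = x (π (p.2.out)⁻¹ (ξ p.1)) := rfl

theorem vec_norm (x : H →L[ℂ] H) (hx : nn π K ξ x ≠ ∞) : ‖vec x hx‖ₑ ^ 2 = nn π K ξ x := by
  rw [nn_eq_tsum]
  exact ee_norm _

theorem vec_norm' (x : H →L[ℂ] H) (hx : nn π K ξ x ≠ ∞) :
    ‖vec x hx‖ ^ 2 = (nn π K ξ x).toReal := by
  rw [← vec_norm x hx, esq, ENNReal.toReal_ofReal (by positivity)]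

/-- the inner product of two operators -/
noncomputable def ip (π : G →* (H →L[ℂ] H)) (K : Subgroup G) (ξ : κ → H) (x y : H →L[ℂ] H) : ℂ :=
  ∑' p : κ × (G ⧸ K), ⟪x (π (p.2.out)⁻¹ (ξ p.1)), y (π (p.2.out)⁻¹ (ξ p.1))⟫_ℂ

theorem ip_eq (x y : H →L[ℂ] H) (hx : nn π K ξ x ≠ ∞) (hy : nn π K ξ y ≠ ∞) :
    ip π K ξ x y = ⟪vec x hx, vec y hy⟫_ℂ := by
  rw [lp.inner_eq_tsum]; rfl

theorem ip_self (x : H →L[ℂ] H) (hx : nn π K ξ x ≠ ∞) :
    ip π K ξ x x = ((nn π K ξ x).toReal : ℂ) := by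
  rw [ip_eq x x hx hx, inner_self_eq_norm_sq_to_K, ← vec_norm' x hx]
  norm_cast

theorem nn_add_ne {x y : H →L[ℂ] H} (hx : nn π K ξ x ≠ ∞) (hy : nn π K ξ y ≠ ∞) :
    nn π K ξ (x + y) ≠ ∞ :=
  ne_top_of_le_ne_top (ENNReal.add_ne_top.mpr ⟨ENNReal.mul_ne_top (by simp) hx,
    ENNReal.mul_ne_top (by simp) hy⟩) (nn_add_le x y)

theorem nn_smul_ne {x : H →L[ℂ] H} (c : ℂ) (hx : nn π K ξ x ≠ ∞) :
    nn π K ξ (c • x) ≠ ∞ := by
  rw [nn_smul]
  exact ENNReal.mul_ne_top (by simp) hx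

theorem nn_neg_ne {x : H →L[ℂ] H} (hx : nn π K ξ x ≠ ∞) :
    nn π K ξ (-x) ≠ ∞ := by
  rwa [nn_neg]

theorem nn_sub_ne {x y : H →L[ℂ] H} (hx : nn π K ξ x ≠ ∞) (hy : nn π K ξ y ≠ ∞) :
    nn π K ξ (x - y) ≠ ∞ := by
  rw [sub_eq_add_neg]
  exact nn_add_ne hx (nn_neg_ne hy)

theorem nn_sum_ne {ι : Type} (s : Finset ι) {x : ι → H →L[ℂ] H}
    (hx : ∀ i ∈ s, nn π K ξ (x i) ≠ ∞) : nn π K ξ (∑ i ∈ s, x i) ≠ ∞ := by
  classical
  induction s using Finset.induction_on with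
  | empty => simp [nn_zero]
  | insert a s ha ih =>
    rw [Finset.sum_insert ha]
    exact nn_add_ne (hx a (Finset.mem_insert_self _ _))
      (ih fun i hi => hx i (Finset.mem_insert_of_mem hi))

theorem nn_left_ne {x : H →L[ℂ] H} (y : H →L[ℂ] H) (hx : nn π K ξ x ≠ ∞) :
    nn π K ξ (y * x) ≠ ∞ :=
  ne_top_of_le_ne_top (ENNReal.mul_ne_top (by simp) hx) (nn_mul_left y x)

theorem nn_right_ne (h : Fra π ξ) {x y : H →L[ℂ] H} (hxc : Com π K x) (hy : Com π K y)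
    (hx : nn π K ξ x ≠ ∞) : nn π K ξ (x * y) ≠ ∞ :=
  ne_top_of_le_ne_top (ENNReal.mul_ne_top (by simp) hx) (nn_mul_right h hxc hy)

theorem nn_adj_ne (h : Fra π ξ) {x : H →L[ℂ] H} (hxc : Com π K x)
    (hx : nn π K ξ x ≠ ∞) : nn π K ξ (adjoint x) ≠ ∞ := by
  rwa [nn_adjoint h hxc]

theorem ip_polar {x y : H →L[ℂ] H} (hx : nn π K ξ x ≠ ∞) (hy : nn π K ξ y ≠ ∞) :
    ip π K ξ x y = (((nn π K ξ (x + y)).toReal : ℂ) - ((nn π K ξ (x - y)).toReal : ℂ) +
      (((nn π K ξ (x - Complex.I • y)).toReal : ℂ) -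
        ((nn π K ξ (x + Complex.I • y)).toReal : ℂ)) * Complex.I) / 4 := by
  have hIy := nn_smul_ne Complex.I hy
  rw [ip_eq x y hx hy, inner_eq_sum_norm_sq_div_four]
  rw [← vec_norm' _ (nn_add_ne hx hy), ← vec_norm' _ (nn_sub_ne hx hy),
    ← vec_norm' _ (nn_sub_ne hx hIy), ← vec_norm' _ (nn_add_ne hx hIy)]
  have e1 : vec (x + y) (nn_add_ne hx hy) = vec x hx + vec y hy := rfl
  have e2 : vec (x - y) (nn_sub_ne hx hy) = vec x hx - vec y hy := rfl
  have e3 : vec (x - Complex.I • y) (nn_sub_ne hx hIy) = vec x hx - Complex.I • vec y hy := rfl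
  have e4 : vec (x + Complex.I • y) (nn_add_ne hx hIy) = vec x hx + Complex.I • vec y hy := rfl
  rw [e1, e2, e3, e4]
  push_cast
  rfl

theorem enorm_I : ‖Complex.I‖ₑ = 1 := by
  rw [← ofReal_norm_eq_enorm, Complex.norm_I, ENNReal.ofReal_one]

/-- The polarised trace property. -/
theorem ip_adjoint (h : Fra π ξ) {x y : H →L[ℂ] H} (hxc : Com π K x) (hyc : Com π K y)
    (hx : nn π K ξ x ≠ ∞) (hy : nn π K ξ y ≠ ∞) :
    ip π K ξ x y = ip π K ξ (adjoint y) (adjoint x) := by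
  have hIy : Com π K (Complex.I • y) := hyc.smul _
  rw [ip_polar hx hy, ip_polar (nn_adj_ne h hyc hy) (nn_adj_ne h hxc hx)]
  have e1 : nn π K ξ (adjoint y + adjoint x) = nn π K ξ (x + y) := by
    rw [← map_add, nn_adjoint h (hyc.add hxc), add_comm]
  have e2 : nn π K ξ (adjoint y - adjoint x) = nn π K ξ (x - y) := by
    rw [← map_sub, nn_adjoint h (hyc.sub hxc), ← nn_neg, neg_sub]
  have e3 : nn π K ξ (adjoint y - Complex.I • adjoint x) = nn π K ξ (x - Complex.I • y) := by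
    have : adjoint y - Complex.I • adjoint x = adjoint (Complex.I • (x - Complex.I • y)) := by
      rw [map_smulₛₗ, map_sub, map_smulₛₗ, smul_sub, smul_smul]
      simp
      abel
    rw [this, nn_adjoint h ((hxc.sub hIy).smul _), nn_smul, enorm_I, one_pow, one_mul]
  have e4 : nn π K ξ (adjoint y + Complex.I • adjoint x) = nn π K ξ (x + Complex.I • y) := by
    have : adjoint y + Complex.I • adjoint x = adjoint ((-Complex.I) • (x + Complex.I • y)) := by
      rw [map_smulₛₗ, map_add, map_smulₛₗ, smul_add, smul_smul]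
      simp
      abel
    rw [this, nn_adjoint h ((hxc.add hIy).smul _), nn_smul, enorm_neg, enorm_I, one_pow, one_mul]
  rw [e1, e2, e3, e4]

theorem ip_left_isom {u : H →L[ℂ] H} (hu : ∀ a b, ⟪u a, u b⟫_ℂ = ⟪a, b⟫_ℂ) (x y : H →L[ℂ] H) :
    ip π K ξ (u * x) (u * y) = ip π K ξ x y := by
  unfold ip
  exact tsum_congr fun q => hu _ _

theorem ip_right_isom (h : Fra π ξ) {x y u : H →L[ℂ] H} (hx : Com π K x) (hy : Com π K y)
    (hu : Com π K u) (hx' : nn π K ξ x ≠ ∞) (hy' : nn π K ξ y ≠ ∞)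
    (hi : ∀ a b, ⟪adjoint u a, adjoint u b⟫_ℂ = ⟪a, b⟫_ℂ) :
    ip π K ξ (x * u) (y * u) = ip π K ξ x y := by
  rw [ip_adjoint h (hx.mul hu) (hy.mul hu) (nn_right_ne h hx hu hx') (nn_right_ne h hy hu hy'),
    adj_mul, adj_mul, ip_left_isom hi, ip_adjoint h hx hy hx' hy']

theorem ip_move (x y z : H →L[ℂ] H) :
    ip π K ξ x (z * y) = ip π K ξ (adjoint z * x) y := by
  unfold ip
  refine tsum_congr fun q => ?_
  rw [H160.mul_ap, H160.mul_ap, adjoint_inner_left]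

/-- expansion in the frame -/
theorem summable_frame (h : Fra π ξ) (v : H) (k : κ) :
    Summable fun g : G => ‖⟪π g (ξ k), v⟫_ℂ‖ ^ 2 := by
  obtain ⟨T, hT0, hT1, hT⟩ := h.par
  have h1 : ∑' g : G, ‖⟪π g (ξ k), v⟫_ℂ‖ₑ ^ 2 ≤ T * ‖v‖ₑ ^ 2 := by
    rw [← hT v]
    exact Finset.single_le_sum (f := fun k => ∑' g : G, ‖⟪π g (ξ k), v⟫_ℂ‖ₑ ^ 2)
      (fun _ _ => zero_le) (Finset.mem_univ k)
  exact esum (ne_top_of_le_ne_top (ENNReal.mul_ne_top hT1 (by simp)) h1)

/-- the closed span of the translates of the frame is everything -/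
theorem mem_span (h : Fra π ξ) (v : H) :
    v ∈ (Submodule.span ℂ {w | ∃ k g, w = π g (ξ k)}).topologicalClosure := by
  set S := (Submodule.span ℂ {w | ∃ k g, w = π g (ξ k)}).topologicalClosure with hS
  obtain ⟨T, hT0, hT1, hT⟩ := h.par
  haveI : CompleteSpace S := (Submodule.isClosed_topologicalClosure _).completeSpace_coe
  have hbot : Sᗮ = ⊥ := by
    rw [Submodule.eq_bot_iff]
    intro w hw
    have h1 : ∀ k g, ⟪π g (ξ k), w⟫_ℂ = 0 := by
      intro k g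
      rw [Submodule.mem_orthogonal] at hw
      exact hw _ (Submodule.le_topologicalClosure _ (Submodule.subset_span ⟨k, g, rfl⟩))
    have h2 := hT w
    simp only [h1] at h2
    simp only [enorm_zero, ne_eq, OfNat.ofNat_ne_zero, not_false_eq_true, zero_pow, tsum_zero,
      Finset.sum_const_zero] at h2
    have h5 := (mul_eq_zero.mp h2.symm).resolve_left hT0
    simpa using h5
  have htop : S = ⊤ := (Submodule.orthogonal_eq_bot_iff).mp hbot
  rw [htop]
  trivial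

/-- matrix coefficients of a representation with a frame vanish at infinity -/
theorem coeff0 (h : Fra π ξ) (u v : H) :
    Tendsto (fun x : G => ⟪u, π x v⟫_ℂ) cofinite (𝓝 0) := by
  have hb : ∀ (k : κ) (a : G), Tendsto (fun x : G => ⟪π a (ξ k), π x v⟫_ℂ) cofinite (𝓝 0) := by
    intro k a
    have h1 : Tendsto (fun y => ⟪π y (ξ k), v⟫_ℂ) cofinite (𝓝 0) := by
      have h2 := (summable_frame h v k).tendsto_cofinite_zero
      rw [tendsto_zero_iff_norm_tendsto_zero]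
      have h3 := (Real.continuous_sqrt.tendsto 0).comp h2
      rw [Real.sqrt_zero] at h3
      refine h3.congr fun y => ?_
      simp only [Function.comp_apply]
      exact Real.sqrt_sq (norm_nonneg _)
    have hinj : Function.Injective (fun x : G => x⁻¹ * a) := by
      intro x y hxy
      simpa using hxy
    refine (h1.comp hinj.tendsto_cofinite).congr fun x => ?_
    simp only [Function.comp_apply]
    rw [h.inner_right, map_mul, H160.mul_ap]
  have hs : ∀ w ∈ Submodule.span ℂ {w | ∃ k g, w = π g (ξ k)},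
      Tendsto (fun x : G => ⟪w, π x v⟫_ℂ) cofinite (𝓝 0) := by
    intro w hw
    induction hw using Submodule.span_induction with
    | mem w hw => obtain ⟨k, g, rfl⟩ := hw; exact hb k g
    | zero => simp only [inner_zero_left]; exact tendsto_const_nhds
    | add a b _ _ ha hb =>
      simp only [inner_add_left]
      simpa using ha.add hb
    | smul c a _ ha =>
      simp only [inner_smul_left]
      simpa using ha.const_mul ((starRingEnd ℂ) c)
  rw [Metric.tendsto_nhds]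
  intro ε hε
  obtain ⟨w, hw, hwu⟩ := Metric.mem_closure_iff.mp (mem_span h u) (ε / (2 * (‖v‖ + 1)))
    (by positivity)
  have h2 := (Metric.tendsto_nhds.mp (hs w hw)) (ε / 2) (by positivity)
  filter_upwards [h2] with x hx
  rw [dist_zero_right] at hx ⊢
  have h3 : ⟪u, π x v⟫_ℂ = ⟪u - w, π x v⟫_ℂ + ⟪w, π x v⟫_ℂ := by
    rw [← inner_add_left, sub_add_cancel]
  rw [h3]
  have hs'' : ‖u - w‖ < ε / (2 * (‖v‖ + 1)) := by
    rw [← dist_eq_norm]
    exact hwu
  have h4 : ‖⟪u - w, π x v⟫_ℂ‖ ≤ ε / 2 := by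
    calc ‖⟪u - w, π x v⟫_ℂ‖
        ≤ ‖u - w‖ * ‖π x v‖ := norm_inner_le_norm _ _
      _ ≤ ε / (2 * (‖v‖ + 1)) * (‖v‖ + 1) := by
          rw [h.norm_map]
          gcongr
          linarith
      _ = ε / 2 := by field_simp
  calc _ ≤ ‖⟪u - w, π x v⟫_ℂ‖ + ‖⟪w, π x v⟫_ℂ‖ := norm_add_le _ _
    _ < ε := by linarith

end gen

end Vale.Agent.P092.H632.T
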